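import Vale.Agent.P354YS.Op
import Vale.Agent.P354XZ.Props
import Vale.Agent.P354YF.Hardy

/-!
The weights of the far zone: smoothness, values, comparison.
-/

open scoped ContDiff
open Set

noncomputable section

namespace Vale.Agent.P354YS

open Vale.Agent.P354XI Vale.Agent.P354XZ

variable {A : Type} [CommRing A] [Algebra ℂ A] {C : Ch A}

/-- Smooth and positive. -/
structure Ps {J : Type} (φ : Fam J) : Prop where
  sm : SmF φ
  pos : ∀ j u r, 0 < r → 0 < φ j u r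

theorem Ps.mul {J : Type} {φ ψ : Fam J} (a : Ps φ) (b : Ps ψ) : Ps (φ * ψ) :=
  ⟨fun j => (a.sm j).mul (b.sm j), fun j u r e => mul_pos (a.pos j u r e) (b.pos j u r e)⟩

theorem Ps.add {J : Type} {φ ψ : Fam J} (a : Ps φ) (b : Ps ψ) : Ps (φ + ψ) :=
  ⟨fun j => (a.sm j).add (b.sm j), fun j u r e => add_pos (a.pos j u r e) (b.pos j u r e)⟩

theorem Ps.sq_div {J : Type} {φ ψ : Fam J} (a : Ps φ) (b : Ps ψ) : Ps (φ ^ 2 / ψ) :=
  ⟨fun j => ((a.sm j).pow 2).div (b.sm j) fun p e => (b.pos j p.1 p.2 e).ne',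
    fun j u r e => div_pos (pow_pos (a.pos j u r e) 2) (b.pos j u r e)⟩

theorem ps_one {J : Type} : Ps (1 : Fam J) :=
  ⟨fun _ => contDiffOn_const, fun _ _ _ _ => one_pos⟩

theorem abs_le_ut (j : C.J) (u : ℝ) : |u| ≤ C.ut j u :=
  Real.abs_le_sqrt (le_add_of_nonneg_right (sq_nonneg _))

theorem vv_pos (j : C.J) (u : ℝ) {r : ℝ} (e : 0 < r) : 0 < C.vv j u r := by
  have := (abs_le.1 (abs_le_ut j u)).1
  unfold Ch.vv
  linarith

variable (h : C.Is)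
include h

theorem one_le_ut (j : C.J) (u : ℝ) : 1 ≤ C.ut j u := by
  have := (h.one_le j).1.trans (h.one_le j).2
  exact Real.le_sqrt_of_sq_le (by nlinarith [sq_nonneg u])

theorem ps_mon (a b e : ℝ) : Ps (C.mon a b e) where
  sm j := by
    have U := (h.one_le j).1.trans (h.one_le j).2
    have t : ContDiff ℝ ∞ fun p : ℝ × ℝ => C.ut j p.1 :=
      ((contDiff_fst.pow 2).add contDiff_const).sqrt fun p => by
        have : 0 < p.1 ^ 2 + C.U0 j ^ 2 := by positivity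
        exact this.ne'
    have v : ContDiff ℝ ∞ fun p : ℝ × ℝ => C.vv j p.1 p.2 :=
      (contDiff_const.mul contDiff_snd).add ((contDiff_fst.add t).div_const 2)
    exact ((contDiffOn_snd.rpow_const_of_ne fun p e => ne_of_gt e).mul
      (v.contDiffOn.rpow_const_of_ne fun p e => (vv_pos j p.1 e).ne')).mul
      (t.contDiffOn.rpow_const_of_ne fun p _ => (one_pos.trans_le (one_le_ut h j p.1)).ne')
  pos j u r e := by
    have := vv_pos j u e
    have := one_pos.trans_le (one_le_ut h j u)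
    unfold Ch.mon
    positivity

variable {p : Fam C.J} (hp : Ps p) (l : ℝ)
include hp

theorem ps_w (i : Fin 4) : Ps (C.w p l i) := by
  fin_cases i
  exacts [hp.mul (ps_mon h ..), ps_mon h .., ps_mon h .., ps_mon h ..]

theorem ps_Db (i : Fin 5) : Ps (C.Db p l i) := by
  fin_cases i <;> exact (ps_mon h ..).mul (ps_w h hp l _)

theorem ps_Dd (i : Fin 4) : Ps (C.Dd p l i.castSucc) := by
  fin_cases i <;> exact (ps_mon h ..).mul (ps_w h hp l _)

theorem ps_Dw (i : Fin 5) : Ps (C.Dw p l i) := by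
  fin_cases i
  exacts [(ps_Db h hp l 0).add (ps_Dd h hp l 0), (ps_Db h hp l 1).add (ps_Dd h hp l 1),
    (ps_Db h hp l 2).add (ps_Dd h hp l 2), (ps_Db h hp l 3).add (ps_Dd h hp l 3),
    by
      change Ps (C.Db p l 4 + 0)
      rw [add_zero]
      exact ps_Db h hp l 4]

theorem ps_OA (i : Fin 4) : Ps (C.OA p l i) :=
  ((ps_mon h ..).mul (ps_w h hp l i)).sq_div (ps_Dw h hp l _)

theorem ps_OB (i : Fin 4) : Ps (C.OB p l i) :=
  ((ps_mon h ..).mul (ps_w h hp l i)).sq_div (ps_Dw h hp l _)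

theorem ps_Zh (i : Fin 2) : Ps (C.Zh p l i) := by
  fin_cases i
  exacts [hp.mul (ps_mon h ..), ps_mon h ..]

omit hp

theorem rr_pos (x : C.Pt) : 0 < C.rr x := one_pos.trans_le (rr_one h x)

theorem Ps.at {φ : Fam C.J} (a : Ps φ) (x : C.Pt) : 0 < C.at' φ x := a.pos _ _ _ (rr_pos h x)

theorem val_fn {φ : Fam C.J} (a : SmF φ) (x : C.Pt) (f : A) :
    C.val x (C.fn φ * f) = C.at' φ x * C.val x f := by
  rw [Ch.val, Ibp.val, map_mul, h.fn_val φ a, Complex.re_ofReal_mul]; rfl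

theorem val_dn {ι : Type} [Fintype ι] {D : ι → Fam C.J} (a : ∀ i, Ps (D i)) (s : A → A)
    (V : ι → A) (x : C.Pt) : C.val x (C.dn D s V) = ∑ i, C.at' (D i) x * C.val x (s (V i)) := by
  rw [Ch.dn, val_sum]
  exact Finset.sum_congr rfl fun i _ => val_fn h (a i).sm x _

theorem dn_nonneg {ι : Type} [Fintype ι] {D : ι → Fam C.J} (a : ∀ i, Ps (D i)) {s : A → A}
    {x : C.Pt} (hs : ∀ f, 0 ≤ C.val x (s f)) (V : ι → A) : 0 ≤ C.val x (C.dn D s V) := by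
  rw [val_dn h a]
  exact Finset.sum_nonneg fun i _ => mul_nonneg ((a i).at h x).le (hs _)

theorem le_dn {ι : Type} [Fintype ι] {D : ι → Fam C.J} (a : ∀ i, Ps (D i)) {s : A → A}
    {x : C.Pt} (hs : ∀ f, 0 ≤ C.val x (s f)) (V : ι → A) (i : ι) :
    C.at' (D i) x * C.val x (s (V i)) ≤ C.val x (C.dn D s V) := by
  rw [val_dn h a]
  exact Finset.single_le_sum (f := fun i => C.at' (D i) x * C.val x (s (V i)))
    (fun i _ => mul_nonneg ((a i).at h x).le (hs _)) (Finset.mem_univ i)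

/-! ### Monomials with a power of the bending factor -/

/-- The exponents of p, r, v, ut. -/
structure Mo where
  z : ℕ
  a : ℝ
  b : ℝ
  e : ℝ

def Mo.mu (s t : Mo) : Mo := ⟨s.z + t.z, s.a + t.a, s.b + t.b, s.e + t.e⟩

/-- The comparison with y additional powers of the bound of p. -/
def Mo.Le (y : ℕ) (s t : Mo) : Prop :=
  s.z ≤ t.z + y ∧ s.a + s.b ≤ t.a + t.b ∧ s.b + s.e ≤ t.b + t.e ∧
    s.a + s.b + s.e ≤ t.a + t.b + t.e ∧ s.b - t.b ≤ 10 ∧ t.b - s.b ≤ 10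

/-- The value. -/
def Mo.ev (s : Mo) (P : ℝ) (x : C.Pt) : ℝ := P ^ s.z * C.at' (C.mon s.a s.b s.e) x

theorem at_mon_mul (a b e a' b' e' : ℝ) (x : C.Pt) :
    C.at' (C.mon a b e) x * C.at' (C.mon a' b' e') x =
      C.at' (C.mon (a + a') (b + b') (e + e')) x :=
  (P354YF.mon_add (a, b, e) (a', b', e') (rr_pos h x) (vv_pos x.1 _ (rr_pos h x))
    (one_pos.trans_le (one_le_ut h x.1 _))).symm

theorem ev_mu (s t : Mo) (P : ℝ) (x : C.Pt) : (s.mu t).ev P x = s.ev P x * t.ev P x := by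
  rw [Mo.ev, Mo.ev, Mo.ev, mul_mul_mul_comm, at_mon_mul h, ← pow_add]; rfl

theorem ev_pos (s : Mo) {P : ℝ} (e : 1 ≤ P) (x : C.Pt) : 0 < s.ev P x :=
  mul_pos (pow_pos (one_pos.trans_le e) _) ((ps_mon h ..).at h x)

omit h in
theorem ev_r (a P : ℝ) (x : C.Pt) : Mo.ev ⟨0, a, 0, 0⟩ P x = C.rr x ^ a := by
  simp [Mo.ev, Ch.at', Ch.mon]

theorem ev_le {y : ℕ} {s t : Mo} (c : s.Le y t) {P Q : ℝ} (e : 1 ≤ P) (e' : P ≤ Q) (x : C.Pt) :
    s.ev P x ≤ 4 ^ 10 * Q ^ y * t.ev P x := by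
  obtain ⟨c0, c1, c2, c3, c4, c5⟩ := c
  have r1 := rr_one h x
  have t1 := one_le_ut h x.1 (C.uu x)
  have u1 := abs_le.1 (abs_le_ut x.1 (C.uu x))
  have u2 : -(3 / 2) * C.rr x ≤ C.uu x := (h.rng _ _ (h.dom x)).2
  have k := P354YF.Dom.le (p := (s.a, s.b, s.e)) (q := (t.a, t.b, t.e)) ⟨c1, c2, c3⟩ r1 t1
    (v := C.vv x.1 (C.uu x) (C.rr x)) (by unfold Ch.vv; linarith) (by unfold Ch.vv; linarith)
    (by unfold Ch.vv; linarith)
  have k2 : (4 : ℝ) ^ |s.b - t.b| ≤ 4 ^ 10 := by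
    rw [← Real.rpow_natCast]
    exact Real.rpow_le_rpow_of_exponent_le (by norm_num) (abs_le.2 ⟨by push_cast; linarith,
      by push_cast; linarith⟩)
  have k3 : P ^ s.z ≤ Q ^ y * P ^ t.z := (pow_le_pow_right₀ e c0).trans (by
    rw [pow_add, mul_comm]
    exact mul_le_mul_of_nonneg_right (pow_le_pow_left₀ (by linarith) e' y) (by positivity))
  have k4 : C.at' (C.mon s.a s.b s.e) x ≤ 4 ^ 10 * C.at' (C.mon t.a t.b t.e) x :=
    k.trans (mul_le_mul_of_nonneg_right k2 ((ps_mon h ..).at h x).le)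
  have Q0 : 0 ≤ Q := by linarith
  refine (mul_le_mul k3 k4 ((ps_mon h ..).at h x).le (by positivity)).trans_eq ?_
  rw [Mo.ev]; ring

/-- The comparison of a dual weight. -/
theorem dual_le {y : ℕ} {a d s t : Mo} (c : ((a.mu a).mu s).Le y (d.mu t)) {P Q : ℝ} (e : 1 ≤ P)
    (e' : P ≤ Q) (x : C.Pt) {D : ℝ} (hD : d.ev P x ≤ D) :
    a.ev P x ^ 2 / D * s.ev P x ≤ 4 ^ 10 * Q ^ y * t.ev P x := by
  have k := ev_le h c e e' x
  rw [ev_mu h, ev_mu h, ev_mu h] at k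
  have d0 := ev_pos h d e x
  have t0 := ev_pos h t e x
  have Q0 : 0 ≤ Q := by linarith
  rw [div_mul_eq_mul_div, div_le_iff₀ (d0.trans_le hD), sq]
  refine k.trans ?_
  rw [mul_comm (d.ev P x), ← mul_assoc]
  exact mul_le_mul_of_nonneg_left hD (by positivity)

/-- The tables of r^2 w, Db, Dd. -/
def tw (z : ℕ) (l : ℝ) : Fin 4 → Mo :=
  ![⟨z, 43 / 20, 14 / 5 - l, 0⟩, ⟨0, 43 / 20, 14 / 5 - l, 0⟩, ⟨0, 43 / 20, 17 / 10 - l, 11 / 10⟩,
    ⟨0, 2, -l, 14 / 5⟩]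
def tb (z : ℕ) (l : ℝ) : Fin 5 → Mo :=
  ![⟨z, 23 / 20, 14 / 5 - l, 0⟩, ⟨z, 23 / 20, 14 / 5 - l, 0⟩, ⟨0, 23 / 20, 14 / 5 - l, 0⟩,
    ⟨0, 23 / 20, 17 / 10 - l, 11 / 10⟩, ⟨0, 17 / 20, -l, 14 / 5⟩]
def td (z : ℕ) (l : ℝ) : Fin 4 → Mo :=
  ![⟨z, 43 / 20, 14 / 5 - l, -21 / 20⟩, ⟨0, 43 / 20, 14 / 5 - l, -21 / 20⟩,
    ⟨0, 43 / 20, 17 / 10 - l, 1 / 20⟩, ⟨0, 2, -l, 7 / 4⟩]

variable {P : ℝ} {z : ℕ} {x : C.Pt} (hz : C.at' p x = P ^ z)
include hz

theorem mon_w (a e : ℝ) (i : Fin 4) : C.at' (C.mon a 0 e * C.w p l i) x =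
    Mo.ev ⟨(tw z l i).z, (tw z l i).a + (a - 2), (tw z l i).b, (tw z l i).e + e⟩ P x := by
  have k : ∀ a' b' e' a2 e2, a2 = a + a' → e2 = e + e' → C.at' (C.mon a 0 e) x *
      C.at' (C.mon a' b' e') x = C.at' (C.mon a2 b' e2) x := fun a' b' e' a2 e2 h1 h2 => by
    rw [at_mon_mul h, zero_add, h1, h2]
  fin_cases i
  · change C.at' (C.mon a 0 e) x * (C.at' p x * C.at' (C.mon _ _ _) x) = P ^ z * _
    rw [hz, mul_left_comm]
    exact congrArg _ (k _ _ _ _ _ (by simp [tw]; ring) (by simp [tw]))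
  all_goals
    change C.at' (C.mon a 0 e) x * C.at' (C.mon _ _ _) x = P ^ 0 * _
    rw [pow_zero, one_mul]
    exact k _ _ _ _ _ (by simp [tw]; try ring) (by simp [tw]; try ring)

theorem at_W (i : Fin 4) : C.at' (C.mon 2 0 0 * C.w p l i) x = (tw z l i).ev P x := by
  rw [mon_w h l hz, sub_self, add_zero, add_zero]

theorem at_Db (i : Fin 5) : C.at' (C.Db p l i) x = (tb z l i).ev P x := by
  fin_cases i
  all_goals
    refine (mon_w h l hz _ _ _).trans ?_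
    congr 1
    simp [tw, tb] <;> norm_num

theorem at_Dd (i : Fin 4) : C.at' (C.Dd p l i.castSucc) x = (td z l i).ev P x := by
  fin_cases i
  all_goals
    refine (mon_w h l hz _ _ _).trans ?_
    congr 1
    simp [tw, td] <;> norm_num

include hp

theorem tb_le (i : Fin 5) : (tb z l i).ev P x ≤ C.at' (C.Dw p l i) x := by
  rw [← at_Db h l hz]
  refine le_add_of_nonneg_right ?_
  fin_cases i
  exacts [((ps_Dd h hp l 0).at h x).le, ((ps_Dd h hp l 1).at h x).le,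
    ((ps_Dd h hp l 2).at h x).le, ((ps_Dd h hp l 3).at h x).le, le_rfl]

theorem td_le (i : Fin 4) : (td z l i).ev P x ≤ C.at' (C.Dw p l i.castSucc) x := by
  rw [← at_Dd h l hz]
  exact le_add_of_nonneg_left ((ps_Db h hp l _).at h x).le

omit hp in
theorem at_OA (i : Fin 4) :
    C.at' (C.OA p l i) x = (tw z l i).ev P x ^ 2 / C.at' (C.Dw p l i.castSucc) x := by
  rw [← at_W h l hz]; rfl

omit hp in
theorem at_OB (i : Fin 4) :
    C.at' (C.OB p l i) x = (tw z l i).ev P x ^ 2 / C.at' (C.Dw p l i.succ) x := by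
  rw [← at_W h l hz]; rfl

end Vale.Agent.P354YS
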