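import Vale.Agent.P354YS.Tm

/-!
The commutation of the coupled system with the letters.
-/

open Set

noncomputable section

namespace Vale.Agent.P354YS

open Vale.Agent.P354XG (Der D_mul D_add D_sub D_neg D_alg D_zero D_one)
open Vale.Agent.P354XI Vale.Agent.P354XZ

variable {A : Type} [CommRing A] [Algebra ℂ A] {C : Ch A}

/-- The components with respect to the basis Ef. -/
def nu (C : Ch A) (a : Fin 5 → A) : Fin 5 → A := ![a 0, C.ri * a 1, a 2, a 3, a 4]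

theorem wd_cm (J : List (Fin 5)) (c g : A) : C.wd J (c * g) = c * C.wd J g + cm C J c g := by
  rw [cm]; ring

theorem wd_int (z : ℤ) (I : List (Fin 5)) (f : A) : C.wd I (z * f) = z * C.wd I f :=
  wd_cst (fun a => (C.X a).map_intCast z) I f

theorem cm_neg (I : List (Fin 5)) (c g : A) : cm C I (-c) g = -cm C I c g := by
  simp only [cm, neg_mul, wd_neg]; ring

theorem vf_nu (h : C.Is) (a : Fin 5 → A) (f : A) : C.vf a f = ∑ b, nu C a b * Ef C b f := by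
  rw [vf_eq h, Fin.sum_univ_five]; rfl

theorem wd_vf (h : C.Is) (J : List (Fin 5)) (ρ : A) (a : Fin 5 → A) (f : A) :
    C.wd J (ρ * C.vf a f) =
      ρ * C.vf a (C.wd J f) + ∑ b, cm C J (ρ * nu C a b) (Ef C b f) := by
  rw [vf_nu h, vf_nu h, Finset.mul_sum, Finset.mul_sum, wd_sum, ← Finset.sum_add_distrib]
  refine Finset.sum_congr rfl fun b _ => ?_
  rw [← mul_assoc, wd_cm, E_wd h, mul_assoc]

section
variable (F : NF A) (C) {W : Type} [Fintype W] (a : ℕ) (am : W → W → ℤ) (V : W → Fin 5 → A)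

/-- The sources, defined by the equations. -/
def sA (j : W) (i : Fin 4) : A := F.n C (V j i.castSucc) - (F.m C (V j i.succ) +
  (((i : ℕ) + 1 : ℕ) - (a : A)) * C.ri * V j i.castSucc + ∑ j2, (am j j2 : A) * C.ri * V j2 i.succ)
def sB (j : W) (i : Fin 4) : A := C.R (V j i.succ) - (F.mb C (V j i.castSucc) -
  ((4 - (i : ℕ) : ℕ) : A) * C.ri * V j i.succ - ∑ j2, (am j2 j : A) * C.ri * V j2 i.castSucc)

theorem sysW : F.SysW C a am V (sA C F a am V) (sB C F am V) :=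
  ⟨fun j i => by rw [sA]; ring, fun j i => by rw [sB]; ring⟩

variable {F C am V} {SA SB : W → Fin 4 → A} (h : C.Is) (sys : F.SysW C 0 am V SA SB)
  (J : List (Fin 5)) (j : W) (i : Fin 4)
include h sys

theorem sA_eq : sA C F a am (fun w i => C.wd J (V w i)) j i = C.wd J (SA j i) +
    (a * C.ri * C.wd J (V j i.castSucc) - ∑ b, cm C J (nu C F.nc b) (Ef C b (V j i.castSucc))) +
    ∑ b, cm C J (nu C F.mc b) (Ef C b (V j i.succ)) +
    (((i : ℕ) + 1 : ℕ) : ℤ) * cm C J C.ri (V j i.castSucc) +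
    ∑ j2, (am j j2 : A) * cm C J C.ri (V j2 i.succ) := by
  have e := congrArg (C.wd J) (sys.eqA j i)
  have e1 := wd_vf h J 1 F.nc (V j i.castSucc)
  have e2 := wd_vf h J 1 F.mc (V j i.succ)
  simp only [one_mul] at e1 e2
  rw [NF.n, NF.m, wd_add, wd_add, wd_add, wd_sum, e1, e2, Nat.cast_zero, sub_zero, mul_assoc,
    wd_nat, wd_cm] at e
  simp only [mul_assoc, wd_int, wd_cm J C.ri, mul_add, Finset.sum_add_distrib] at e
  simp only [sA, NF.n, NF.m, mul_assoc, Int.cast_natCast]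
  linear_combination e

theorem sB_eq : sB C F am (fun w i => C.wd J (V w i)) j i = C.ri * C.wd J (C.r * 1 * SB j i) +
    ∑ b, C.ri * cm C J (C.r * nu C (C.cj F.mc) b) (Ef C b (V j i.castSucc)) := by
  have e0 : Ef C 1 (V j i.succ) = C.r * C.vf (C.cj F.mc) (V j i.castSucc) -
      ((4 - (i : ℕ) : ℕ) : A) * V j i.succ - ∑ j2, (am j2 j : A) * V j2 i.castSucc +
      C.r * 1 * SB j i := by
    have q : ∑ j2, (am j2 j : A) * C.ri * V j2 i.castSucc =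
        C.ri * ∑ j2, (am j2 j : A) * V j2 i.castSucc := by
      rw [Finset.mul_sum]; exact Finset.sum_congr rfl fun _ _ => by ring
    change C.r * C.R _ = _
    rw [sys.eqB, q, NF.mb]
    linear_combination -(((4 - (i : ℕ) : ℕ) : A) * V j i.succ +
      ∑ j2, (am j2 j : A) * V j2 i.castSucc) * h.hr
  have e := congrArg (C.wd J) e0
  rw [← E_wd h, wd_add, wd_sub, wd_sub, wd_sum, wd_vf h, wd_nat] at e
  simp only [wd_int] at e
  have q : ∑ j2, (am j2 j : A) * C.ri * C.wd J (V j2 i.castSucc) =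
      C.ri * ∑ j2, (am j2 j : A) * C.wd J (V j2 i.castSucc) := by
    rw [Finset.mul_sum]; exact Finset.sum_congr rfl fun _ _ => by ring
  change C.r * C.R _ = _ at e
  simp only [sB, NF.mb]
  rw [q, ← Finset.mul_sum]
  linear_combination C.ri * e - (C.R (C.wd J (V j i.succ)) -
    C.vf (C.cj F.mc) (C.wd J (V j i.castSucc))) * h.hr

end

variable {F F0 : NF A} {K : Cut C} {Vw : List Lt → Fin 5 → A} {s : ℕ}
  {am : (Fin s → Lt) → (Fin s → Lt) → ℤ} {n : ℕ} {ω : Sit F F0 K Vw am n → ℝ}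

theorem Tn.of_j {f : Sit F F0 K Vw am n → A} (a : C.J → Tn ω f) : Tn ω f := by
  by_cases e : Nonempty C.J
  · exact a e.some
  · exact ⟨0, le_rfl, fun _ => ⟨0, le_rfl, fun σ _ => absurd ⟨σ.x.1⟩ e⟩⟩

theorem Sit.wd_J (σ : Sit F F0 K Vw am n) (f : A) : C.wd σ.J f = C.wd σ.I ((C.T)^[σ.k] f) := by
  rw [Sit.J, wd_append, wd_rep]

/-- A small coefficient of the class g. -/
def Sm (C : Ch A) (F F0 : NF A) (a : A) : Prop := ∃ b i z, C.Sy 2 b ∧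
  (∀ n x, C.jet n z x ≤ C.jet n F.al x) ∧ a = b + (F.df F0 C).g i + z

section
variable (ω0 : ∀ σ, 0 ≤ ω σ) (h : C.Is) (hK : K.Is) (w : Fin s → Lt) {c : Fin 5}
  {Φ : List (Fin 5) → A → A → A} (o : Op C Φ)
  (ad : ∀ J a b g, Φ J (a + b) g = Φ J a g + Φ J b g)
  (h1 : ∀ σ, ω σ * σ.ρ ^ 2 ≤ 4 ^ 10 * σ.dw c)
include ω0 h hK o ad h1

theorem tn_sm (h2 : ∀ σ, σ.l = 1 / 100 → ω σ ≤ 4 ^ 10 * K.pm σ.x.1 ^ 2 *
    (C.at' (C.Zg σ.l) σ.x * (C.rr σ.x * C.at' (C.mon 0 0 (-3 / 10)) σ.x) *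
      C.at' (C.Dw 1 0 c) σ.x)) (φ : A →+* A)
    (hφ : ∀ n f x, C.jet n (φ f) x = C.jet n f x) (hT : ∀ f, C.T f = 0 → C.T (φ f) = 0) {a : A}
    (ha : Sm C F F0 a) : Tn ω fun σ => Φ σ.J (φ a) (C.Vs Vw 0 s w c) := by
  obtain ⟨b, i, z, hb, hz, rfl⟩ := ha
  refine (((tn_lin ω0 h hK w o h1 (a := φ b) ⟨hT _ hb.1, fun n => by
    simpa only [hφ] using hb.2 n⟩).add ω0 (tn_quad ω0 h hK w o (γ := φ ((F.df F0 C).g i))
    (Z := fun σ => C.at' (C.Zg σ.l) σ.x) h1 fun σ => ?_)).add ω0 (tn_quad ω0 h hK w o (γ := φ z)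
    (Z := 0) h1 fun σ => Or.inl ?_)).congr fun σ => by rw [map_add, map_add, ad, ad]
  · have t := ((σ.tg σ.x (mem_univ _)).2.1 i).trans (mul_le_mul_of_nonneg_left (Sg_le h σ.x)
      (hK.ep _))
    have Z0 : 0 ≤ C.at' (C.Zg σ.l) σ.x := ((ps_mon h ..).at h _).le
    simp only [hφ]
    rcases le_or_gt (n + σ.k) σ.m with e | e
    · exact Or.inl ((jet_mono e _).trans t)
    · exact Or.inr ⟨e, t, Sit.le_G h hK _ _ _ _ _ Z0 (le_dGg h (ps_p hK) _ (sl_nonneg h _) _ i),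
        h2 σ, Z0⟩
  · rw [hφ]
    refine (hz _ _).trans ((σ.ta σ.x).trans_eq ?_)
    rw [← ev_at _ _ _ _ 1, ev_r, Real.rpow_neg_one, Sit.ρ]

theorem tn_sb (h2 : ∀ σ, ω σ * C.at' C.Sb σ.x ^ 2 ≤ 4 ^ 10 * σ.dw c)
    (h3 : ∀ σ, σ.l = 1 / 100 → ω σ ≤ 4 ^ 10 * K.pm σ.x.1 ^ 2 *
    (C.at' (C.Zb σ.l) σ.x * (C.rr σ.x * C.at' (C.mon 0 0 (-3 / 10)) σ.x) *
      C.at' (C.Dw 1 0 c) σ.x)) {a : A} (ha : C.Sy 2 a)
    (i : Fin 7) : Tn ω fun σ => Φ σ.J (a + (F.df F0 C).b i) (C.Vs Vw 0 s w c) := by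
  refine ((tn_lin ω0 h hK w o h1 ha).add ω0 (tn_quad ω0 h hK w o (γ := (F.df F0 C).b i)
    (Z := fun σ => C.at' (C.Zb σ.l) σ.x) h2 fun σ => ?_)).congr fun σ => ad ..
  have t := (σ.tg σ.x (mem_univ _)).1 i
  have Z0 : 0 ≤ C.at' (C.Zb σ.l) σ.x := ((ps_mon h ..).at h _).le
  rcases le_or_gt (n + σ.k) σ.m with e | e
  · exact Or.inl ((jet_mono e _).trans t)
  · exact Or.inr ⟨e, t, Sit.le_G h hK _ _ _ _ _ Z0 (le_dGb h (ps_p hK) _ (sl_nonneg h _) _ i),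
      h3 σ, Z0⟩

omit o ad

theorem tn_ri : Tn ω fun σ => cm C σ.J C.ri (C.Vs Vw 0 s w c) :=
  tn_hi ω0 h hK w h1 (B := 2 ^ n) fun σ Y Y0 hY => by
    rw [Sit.J, cm_tc _ _ (X_ri h 0)]
    exact (hi_low Y0 (fun J e => hY J (Or.inr e)) (inv_nonneg.2 (rr_pos h _).le)
      fun J _ => md_wd_ri h J _).trans_eq (by rw [σ.len]; rfl)

theorem tn_T {ρ a : A} {p q : ℝ} (hρ : C.Sy p ρ) (ha : C.Sy q a) (e : p + q = 1) :
    Tn ω fun σ => ρ * cm C σ.J a (Ef C 0 (C.Vs Vw 0 s w c)) := by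
  obtain ⟨L, L0, hL⟩ := P354YF.sy_pos h ha n
  obtain ⟨M, M0, hM⟩ := P354YF.sy_pos h hρ 0
  refine tn_hi ω0 h hK w h1 (B := M * 2 ^ n * L) fun σ Y Y0 hY => ?_
  have k := hi_T Y0 hY ha.1
  have r := rr_pos h σ.x
  rw [σ.len] at k
  rw [Sit.J, (op_cm h 0).tc _ _ _ _ ha.1, md_mul]
  refine (mul_le_mul ((md_le_jet (I := []) le_rfl ρ).trans (hM _)) (k.trans
    (mul_le_mul_of_nonneg_left (mul_le_mul_of_nonneg_right (hL _) Y0) (by positivity)))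
    (md_nonneg _ _) (by positivity)).trans_eq ?_
  rw [Sit.ρ, ← Real.rpow_neg_one, ← e, neg_add, Real.rpow_add r]; ring

end

variable {t : Fin 4 → A} (ga : F.Ga F0 C t)
include ga

theorem sm_all : Sm C F F0 (F.mc 0 - F0.mc 0) ∧ Sm C F F0 (C.ri * F.mc 1) ∧ Sm C F F0 (F.mc 2) ∧
    Sm C F F0 (F.mc 3 - C.ri) ∧ Sm C F F0 (F.mc 4) := by
  have z : ∀ n x, C.jet n 0 x ≤ C.jet n F.al x := fun n x => (jet_zero n).trans_le (jet_nonneg ..)
  refine ⟨⟨0, 4, F.al, P354YF.sy_zero, fun _ _ => le_rfl, ?_⟩, ⟨_, 5, 0, P354YF.sy_mul' ga.ch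
    (P354YF.sy_ri ga.ch) ga.rf.m0.2 (by norm_num), z, ?_⟩, ⟨_, 6, 0, ga.rf.ma.1, z, ?_⟩,
    ⟨_, 7, 0, ga.rf.ma.2.1, z, ?_⟩, ⟨_, 8, 0, ga.rf.ma.2.2, z, ?_⟩⟩
  · change _ = 0 + (F.mc 0 - F.al - (F0.mc 0 - F0.al)) + _
    rw [ga.rf.al]; ring
  · change _ = _ + (C.ri * F.mc 1 - C.ri * F0.mc 1) + 0; ring
  · change _ = _ + (F.mc 2 - F0.mc 2) + 0; ring
  · change _ = _ + (F.mc 3 - F0.mc 3) + 0; ring
  · change _ = _ + (F.mc 4 - F0.mc 4) + 0; ring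

variable (hK : K.Is) (w : Fin s → Lt) (i : Fin 4)
include hK

theorem tnB : Tn (fun σ : Sit F F0 K Vw am n => C.at' (C.OB K.p σ.l i) σ.x) fun σ =>
    sB C F am (fun w i => C.wd σ.J (C.Vs Vw 0 s w i)) w i := by
  have h := ga.ch
  refine Tn.of_j fun j => ?_
  have ω0 := fun σ : Sit F F0 K Vw am n => ((ps_OB h (ps_p hK) σ.l i).at h σ.x).le
  have h1 := fun σ : Sit F F0 K Vw am n => b1 h hK σ.x σ.l_mem.1 σ.l_mem.2 i
  have k := fun b a => tn_sm ω0 h hK w ((op_cm h b).conj h) (fun J a b g => by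
    rw [mul_add, cm_add, mul_add]) h1 (fun σ e => by rw [e]; exact b2 h hK σ.x i) C.c
    (fun _ _ _ => jet_c h ..) (fun f e => by rw [← P354YF.T_c h j, e, map_zero]) (a := a)
  obtain ⟨m0, m1, m2, m3, m4⟩ := sm_all ga
  have k0 := tn_T ω0 h hK w h1 (P354YF.sy_ri h) (P354YF.sy_mul h (P354YF.sy_r h)
    (P354YF.sy_c h j ga.rf.m0.1)) (by norm_num)
  have k1 : Tn (fun σ : Sit F F0 K Vw am n => C.at' (C.OB K.p σ.l i) σ.x) fun σ =>
      C.ri * C.wd σ.J (C.r * 1 * σ.SB w i) := by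
    obtain ⟨B, B0, hB⟩ := (op_wd.conj h).bd n
    refine ⟨B ^ 2 * cw n ^ 2, by positivity, fun _ => ⟨0, le_rfl, fun σ _ => ?_⟩⟩
    have e := hB σ.I 1 ((C.T)^[σ.k] (σ.SB w i)) σ.x _ σ.len (bs_top _ _ _ _)
    rw [P354YF.jet_one, one_mul, ← (op_wd.conj h).tc _ _ _ _ (D_one _)] at e
    have e1 := mul_le_mul_of_nonneg_left (pow_le_pow_left₀ (md_nonneg _ _) e 2) (ω0 σ)
    have e2 := mul_le_mul_of_nonneg_left (jet_le_sl (x := σ.x) h n ((C.T)^[σ.k] (σ.SB w i)))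
      (mul_nonneg (ω0 σ) (sq_nonneg B))
    have e3 := mul_le_mul_of_nonneg_left ((σ.le_P1 h hK w i).2.trans (σ.P1_le h hK))
      (show 0 ≤ B ^ 2 * cw n ^ 2 by positivity)
    simp only [Sit.J]
    linarith
  refine (k1.add ω0 (((((k0.add ω0 (k 0 _ m0)).add ω0 (k 1 _ m1)).add ω0 (k 2 _ m3)).add ω0
    (k 3 _ m2)).sub ω0 (k 4 _ m4))).congr fun σ => ?_
  have e0 : C.r * nu C (C.cj F.mc) 0 = C.r * C.c (F0.mc 0) + C.r * C.c (F.mc 0 - F0.mc 0) := by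
    change C.r * C.c (F.mc 0) = _
    rw [map_sub]; ring
  have e1 : nu C (C.cj F.mc) 1 = C.c (C.ri * F.mc 1) := by
    rw [map_mul, P354YF.c_ri h]; rfl
  have e2 : C.r * nu C (C.cj F.mc) 2 = 1 + C.r * C.c (F.mc 3 - C.ri) := by
    change C.r * C.c (F.mc 3) = _
    rw [map_sub, P354YF.c_ri h]; linear_combination h.hr
  have e4 : C.r * nu C (C.cj F.mc) 4 = -(C.r * C.c (F.mc 4)) := mul_neg _ _
  rw [sB_eq h σ.sys, Fin.sum_univ_five, e0, e1, e2, e4, cm_add, cm_add, cm_neg,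
    cm_cst fun a => D_one _, zero_add, mul_add, mul_neg, ← sub_eq_add_neg]
  rfl

theorem tnA : Tn (fun σ : Sit F F0 K Vw am n => C.at' (C.OA K.p σ.l i) σ.x) fun σ =>
    sA C F (Ch.la σ.I) am (fun w i => C.wd σ.J (C.Vs Vw 0 s w i)) w i := by
  have h := ga.ch
  have ω0 := fun σ : Sit F F0 K Vw am n => ((ps_OA h (ps_p hK) σ.l i).at h σ.x).le
  have h1 := fun σ : Sit F F0 K Vw am n => a1 h hK σ.x σ.l_mem.1 σ.l_mem.2 i
  have h2 := fun σ : Sit F F0 K Vw am n => a2 h hK σ.x σ.l_mem.1 σ.l_mem.2 i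
  have k := fun b a => tn_sm ω0 h hK w (op_cm h b) (fun J a b g => cm_add ..) h2
    (fun σ e => by rw [e]; exact a5 h hK σ.x i) (RingHom.id A) (fun _ _ _ => rfl)
    (fun _ e => e) (a := a)
  have g := fun b a => tn_sb ω0 h hK w (op_cm h b) (fun J a b g => cm_add ..) h1
    (fun σ => a3 h hK σ.x σ.l_mem.1 σ.l_mem.2 i) (fun σ e => by rw [e]; exact a4 h hK σ.x i)
    (a := a)
  obtain ⟨m0, m1, m2, m3, m4⟩ := sm_all ga
  have k0 := tn_T ω0 h hK w h2 (P354YF.sy_one h) ga.rf.m0.1 (by norm_num)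
  obtain ⟨B, -, hB⟩ := hi_an h n
  have k3 : Tn (fun σ : Sit F F0 K Vw am n => C.at' (C.OA K.p σ.l i) σ.x) fun σ =>
      cm C σ.J C.ri (Ef C 3 (C.Vs Vw 0 s w i.succ)) := tn_hi ω0 h hK w h2 fun σ Y Y0 hY => by
    rw [Sit.J, (op_cm h 3).tc _ _ _ _ (X_ri h 0)]
    exact hB σ.I σ.x 1 _ Y σ.len Y0 hY
  have kL : Tn (fun σ : Sit F F0 K Vw am n => C.at' (C.OA K.p σ.l i) σ.x) fun σ =>
      cm C σ.J C.ri (Ef C 1 (C.Vs Vw 0 s w i.castSucc)) + (Ch.la σ.I : A) * C.ri *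
        C.wd σ.J (C.Vs Vw 0 s w i.castSucc) :=
    tn_hi ω0 h hK w h1 (B := 2 * 2 ^ n) fun σ Y Y0 hY => by
      rw [σ.wd_J, Sit.J, (op_cm h 1).tc _ _ _ _ (X_ri h 0)]
      exact (hi_L h Y0 fun J e => hY J (Or.inr e)).trans_eq (by rw [σ.len]; rfl)
  have k1 : Tn (fun σ : Sit F F0 K Vw am n => C.at' (C.OA K.p σ.l i) σ.x) fun σ =>
      C.wd σ.J (σ.SA w i) := by
    refine ⟨1, zero_le_one, fun _ => ⟨0, le_rfl, fun σ _ => ?_⟩⟩
    have e := mul_le_mul_of_nonneg_left (md_le_sl (x := σ.x) h (I := σ.I) (n := n + 1)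
      (by rw [σ.len]; omega) ((C.T)^[σ.k] (σ.SA w i))) (ω0 σ)
    simp only [σ.wd_J]
    linarith [(σ.le_P1 h hK w i).1, σ.P1_le h hK]
  refine ((((k1.add ω0 (kL.sub ω0 (((((g 0 _ ga.rf.n0 2).add ω0 (g 1 _ (P354YF.sy_mul' h
    (P354YF.sy_ri h) ga.rf.n1 (by norm_num)) 3)).add ω0 (g 2 _ ga.rf.na.1 4)).add ω0
    (g 3 _ ga.rf.na.2.1 5)).add ω0 (g 4 _ ga.rf.na.2.2 6)))).add ω0 (((((k0.add ω0
    (k 0 _ m0)).add ω0 (k 1 _ m1)).add ω0 (k 2 _ m2)).add ω0 (k3.add ω0 (k 3 _ m3))).add ω0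
    (k 4 _ m4))).add ω0 ((tn_ri ω0 h hK w h1).int ((i : ℕ) + 1 : ℕ))).add ω0
    (Tn.sum ω0 Finset.univ fun j2 _ => (tn_ri ω0 h hK j2 h2).int (am w j2))).congr fun σ => ?_
  have e0 : nu C F.nc 0 = (2 : ℕ) + (F0.nc 0 - 2 + (F.df F0 C).b 2) := by
    change F.nc 0 = _ + (_ + (F.nc 0 - F0.nc 0)); push_cast; ring
  have e1 : nu C F.nc 1 = -C.ri + (C.ri * (F0.nc 1 + 1) + (F.df F0 C).b 3) := by
    change C.ri * F.nc 1 = _ + (_ + (C.ri * F.nc 1 - C.ri * F0.nc 1)); ring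
  have e2 : nu C F.nc 2 = F0.nc 2 + (F.df F0 C).b 4 := (add_sub_cancel _ _).symm
  have e3 : nu C F.nc 3 = F0.nc 3 + (F.df F0 C).b 5 := (add_sub_cancel _ _).symm
  have e4 : nu C F.nc 4 = F0.nc 4 + (F.df F0 C).b 6 := (add_sub_cancel _ _).symm
  have f0 : nu C F.mc 0 = F0.mc 0 + (F.mc 0 - F0.mc 0) := (add_sub_cancel _ _).symm
  have f3 : nu C F.mc 3 = C.ri + (F.mc 3 - C.ri) := (add_sub_cancel _ _).symm
  have f1 : nu C F.mc 1 = C.ri * F.mc 1 := rfl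
  have f2 : nu C F.mc 2 = F.mc 2 := rfl
  have f4 : nu C F.mc 4 = F.mc 4 := rfl
  rw [sA_eq _ h σ.sys, Fin.sum_univ_five, Fin.sum_univ_five, e0, e1, e2, e3, e4, f0, f1, f2, f3,
    f4, cm_add _ _ (_ + _), cm_add _ _ (_ + _), cm_neg, cm_cst fun a => (C.X a).map_natCast 2,
    cm_add _ _ (_ - _), cm_add _ _ (_ - _)]
  simp only [RingHom.id_apply]
  ring

omit ga hK in
/-- The commutation with the letters. -/
theorem com (C : Ch A) (F F0 : NF A) (t : Fin 4 → A) (K : Cut C) (Vw : List Lt → Fin 5 → A) :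
    COM C F F0 t K Vw := by
  intro ga hK s am n
  have h := ga.ch
  obtain ⟨B, -, hB⟩ := Tm.sum Finset.univ fun w _ =>
    (Tm.sum Finset.univ fun i _ => tnA (Vw := Vw) (am := am) (n := n) ga hK w i).add
      (Tm.sum Finset.univ fun i _ => tnB ga hK w i)
  refine ⟨B, fun k => ?_⟩
  obtain ⟨B', -, hB⟩ := hB k
  refine ⟨B', fun SA SB sys I len => ⟨_, _, sysW .., fun m m' N tg ta tw l rg x _ => ?_⟩⟩
  have := hB ⟨k, SA, SB, I, m, m', N, l, x, sys, len, tg, ta, tw, rg⟩ rfl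
  simp only [Sit.wd_J, Sit.E, Sit.E', Sit.P1, Sit.P2, Sit.P3, Sit.P4] at this
  refine le_of_eq_of_le ?_ (this.trans_eq (by rw [sml]; ring))
  rw [val_sum]
  refine Finset.sum_congr rfl fun w _ => ?_
  rw [Ch.dS, val_add, val_dn h (ps_OA h (ps_p hK) l), val_dn h (ps_OB h (ps_p hK) l)]
  simp only [sw_zero h]
  rfl

end Vale.Agent.P354YS
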