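import Vale.Agent.P354MG.Phi
import Vale.Agent.P354YQ.Og1
import Vale.Agent.P354YO.Sh

/-!
Jets of shifts, and of maps which are close to the identity up to a shift of the time.
-/

set_option maxSynthPendingDepth 3

open scoped ContDiff
open Set Filter Topology

namespace Vale.Agent.P354YS

open Vale.Agent.P354n (R4)
open Vale.Agent.P354XE (Tw gin rd pb Bd)
open Vale.Agent.P354XD (tb)
open Vale.Agent.P354Z (hs js)
open Vale.Agent.P354YT (prim_d prim_cd)
open Vale.Agent.P354CV (hs_cd js_cd)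
open Vale.Agent.P354YI Vale.Agent.P354YO Vale.Agent.P354MG

variable {M a M' a' R r0 : ℝ} {A B F G : ℝ → ℝ}

theorem th_two (h0 : 0 < M) (t : IsTh M M' a' A B) : ContDiff ℝ ∞ A ∧ ContDiff ℝ ∞ B :=
  ⟨contDiff_infty_iff_deriv.2 ⟨fun r => (t r).1.differentiableAt, by
    rw [funext fun r => (t r).1.deriv]
    exact ((hs_cd h0).comp (by fun_prop)).sub contDiff_const⟩,
  contDiff_infty_iff_deriv.2 ⟨fun r => (t r).2.differentiableAt, by
    rw [funext fun r => (t r).2.deriv]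
    exact contDiff_const.mul ((js_cd h0).comp (by fun_prop))⟩⟩

/-- **THE.** -/
theorem the : THE := fun M R M' a' A B h0 =>
  have s : Continuous fun x : ℝ => (M', a', x) := by fun_prop
  ⟨fun r => A R + ∫ x in R..r, (hs M (M', a', x) - 1),
    fun r => B R + ∫ x in R..r, 2 * js M (M', a', x), fun r =>
    ⟨(prim_d (((hs_cd h0).continuous.comp s).sub continuous_const) R r).const_add _,
      (prim_d (continuous_const.mul ((js_cd h0).continuous.comp s)) R r).const_add _⟩,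
    by simp, by simp⟩

theorem prim_jb {H : ℝ × ℝ × ℝ → ℝ} (hH : ContDiff ℝ ∞ H) (M a : ℝ) (hR : r0 ≤ R) (ρ : ℝ)
    (N : ℕ) : ∃ C, ∀ M' a' (D : ℝ → ℝ),
      (∀ r, HasDerivAt D (H (M, a, r) - H (M', a', r)) r) → D R = 0 → |M' - M| + |a' - a| ≤ 1 →
      ∀ r ∈ Icc r0 ρ, Jb N D r (C * (|M' - M| + |a' - a|)) := by
  obtain ⟨C, hC⟩ := (P354YQ.prim_sm hH M a r0 (max ρ R) N).exists
  refine ⟨C + C, fun M' a' D d z h r hr => ?_⟩
  have c : ContDiff ℝ ∞ fun x => H (M, a, x) - H (M', a', x) := by fun_prop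
  have k := fun r => (d r).fun_sub (prim_d c.continuous r0 r)
  have e := is_const_of_deriv_eq_zero (fun r => (k r).differentiableAt)
    (fun r => (k r).deriv.trans (sub_self _))
  have b := (hC M' a' h R ⟨hR, le_max_right _ _⟩).zero
  rw [← norm_neg] at b
  refine (((hC M' a' h r ⟨hr.1, hr.2.trans (le_max_left _ _)⟩).add (jb_const N _ r)
    (prim_cd c r0).contDiffAt contDiffAt_const).congr (.of_forall fun x => ?_)).mono le_rfl
      ((add_le_add le_rfl b).trans_eq (by ring))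
  linarith [e x R]

section family
variable {J V : Type} [NormedAddCommGroup V] [NormedSpace ℝ V] {x : J → R4} {y : J → R4 → R4}
  {μ ν : J → ℝ} {m n : ℕ} {r1 ρ : ℝ}

/-- The charts for nearby parameters. -/
theorem nth_oj (h0 : 0 < M) (t : IsTh M M a A B) (hR : r0 ≤ R) {P Q r : J → ℝ}
    {A' B' : J → ℝ → ℝ} (h : ∀ j, Nth M R (P j) (Q j) A B (A' j) (B' j))
    (d : ∀ j, |P j - M| + |Q j - a| ≤ ν j) (d1 : ∀ j, ν j ≤ 1) (hr : ∀ j, r j ∈ Icc r0 ρ) :
    Oj m r (fun j s => A s - A' j s) ν ∧ Oj m r (fun j s => B s - B' j s) ν := by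
  obtain ⟨C, hC⟩ := prim_jb (hs_cd h0) M a hR ρ m
  obtain ⟨D, hD⟩ := prim_jb ((contDiff_const (c := (2 : ℝ))).mul (js_cd h0)) M a hR ρ m
  have n := fun j => (add_nonneg (abs_nonneg _) (abs_nonneg _)).trans (d j)
  have w := fun (C : ℝ) j => (mul_le_mul_of_nonneg_right (le_abs_self C) (by positivity)).trans
    (mul_le_mul_of_nonneg_left (d j) (abs_nonneg C))
  exact ⟨(Oj.of (fun j => ((th_two h0 t).1.sub (th_two h0 (h j).th).1).contDiffAt) fun j =>
      hC _ _ _ (fun r => ((t r).1.fun_sub ((h j).th r).1).congr_deriv (by ring))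
        (sub_eq_zero.2 (h j).A.symm) ((d j).trans (d1 j)) _ (hr j)).wt n (w C),
    (Oj.of (fun j => ((th_two h0 t).2.sub (th_two h0 (h j).th).2).contDiffAt) fun j =>
      hD _ _ _ (fun r => (t r).2.fun_sub ((h j).th r).2)
        (sub_eq_zero.2 (h j).B.symm) ((d j).trans (d1 j)) _ (hr j)).wt n (w D)⟩

theorem sh_pr (F G : ℝ → ℝ) (z : R4) : sh F G (pr0 z) - pr0 z = sh F G z - z :=
  Prod.ext (show (0 : ℝ) + F (rd z) - 0 = z.1 + F (rd z) - z.1 by ring) rfl

theorem pr_norm (z : R4) : ‖pr0 z‖ = ‖z.2‖ := by simp [pr0, Prod.norm_def]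

/-- Smooth for positive radii. -/
def Shp (F G : ℝ → ℝ) : Prop := ∀ r > 0, ContDiffAt ℝ ∞ F r ∧ ContDiffAt ℝ ∞ G r

theorem Shp.sh (h : Shp F G) {z : R4} (hz : 0 < rd z) : ContDiffAt ℝ ∞ (sh F G) z :=
  sh_cd hz.ne' (h _ hz).1 (h _ hz).2

theorem Shp.neg (h : Shp F G) : Shp (-F) (-G) := fun r k => ⟨(h r k).1.neg, (h r k).2.neg⟩

theorem sp_of (h0 : 0 < M) (t : IsTh M M' a' A B) : Shp (fun r => A r - 4 * M ^ 2 / r) B :=
  fun _ k => ⟨(th_two h0 t).1.contDiffAt.sub (contDiffAt_const.div contDiffAt_id k.ne'),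
    (th_two h0 t).2.contDiffAt⟩

theorem Shp.d (h : Shp F G) (h1 : 0 < r1) (hx : ∀ j, r1 ≤ rd (x j) ∧ rd (x j) ≤ ρ) (m : ℕ) :
    Oj m x (fun _ => fderiv ℝ (P354YO.sh F G)) 1 :=
  oj_fd1 ((oj_st (F := fun z => P354YO.sh F G z - z) h1 hx fun _ k =>
    (h.sh k).sub contDiffAt_id).congr' fun _ z => (sh_pr F G z).symm) fun _ => le_rfl

/-- A family of maps close to the identity up to a shift of the time. -/
structure Nd (n : ℕ) (r1 ρ : ℝ) (x : J → R4) (y : J → R4 → R4) (μ : J → ℝ) : Prop where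
  r : 0 < r1
  hx : ∀ j, r1 ≤ rd (x j) ∧ rd (x j) ≤ ρ
  s : ∀ j, ContDiffAt ℝ ∞ (y j) (x j)
  d : Oj n x (fun j z => fderiv ℝ (y j) z - ContinuousLinearMap.id ℝ R4) μ
  v : ∀ j, ‖(y j (x j) - x j).2‖ ≤ μ j
  le : ∀ j, μ j ≤ 1 ∧ μ j ≤ r1 / 4

namespace Nd
variable (h : Nd n r1 ρ x y μ)
include h

theorem d1 : Oj n x (fun j => fderiv ℝ (y j)) 1 :=
  ((h.d.mono (ν := 1) le_rfl fun j => (h.le j).1).add (.cst (.id ℝ R4))).congr'
    fun _ _ => (sub_add_cancel _ _).symm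

theorem nv (j : J) : ‖pr0 (y j (x j)) - pr0 (x j)‖ ≤ μ j := by
  rw [← map_sub, pr_norm]
  exact h.v j

theorem o : Oj (n + 1) x (fun j z => pr0 (y j z) - pr0 z) μ :=
  (Oj.zero (fun j => (pr0.contDiff.contDiffAt.comp _ (h.s j)).sub pr0.contDiff.contDiffAt) h.d.nn
    ⟨1, fun j => (h.nv j).trans (one_mul _).ge⟩).succ
    (((Oj.cst pr0).cr h.d).congr fun j => (ev_dif (h.s j)).mono fun z k =>
      ((pr0.hasFDerivAt.comp z k.hasFDerivAt).fun_sub pr0.hasFDerivAt).fderiv.trans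
        (pr0.comp_sub _ (.id ℝ R4)).symm)

theorem nr (j : J) {z : R4} (k : ‖z - pr0 (x j)‖ ≤ μ j) : r1 / 2 ≤ rd z ∧ rd z ≤ ρ + 2 := by
  have := abs_le.1 (rd_lip z (pr0 (x j)))
  rw [show rd (pr0 (x j)) = rd (x j) from rfl] at this
  constructor <;> linarith [h.hx j, h.le j]

theorem ry (j : J) : r1 / 2 ≤ rd (y j (x j)) ∧ rd (y j (x j)) ≤ ρ + 2 :=
  h.nr (z := pr0 (y j (x j))) j (h.nv j)

/-- Stationary functions. -/
theorem st {H : R4 → V} (hH : ∀ z, 0 < rd z → ContDiffAt ℝ ∞ H z) :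
    Oj (n + 1) x (fun j z => H (pr0 (y j z)) - H (pr0 z)) μ := by
  have := Oj.lip (f := fun j z => pr0 (y j z)) (f' := fun _ z => pr0 z) (ν := 1)
    (fun j => pr0.contDiff.contDiffAt.comp _ (h.s j)) (fun _ => pr0.contDiff.contDiffAt)
    (S := fun _ => {z | r1 / 2 ≤ rd z ∧ rd z ≤ ρ + 2}) (fun j z k => h.nr j
      (mem_closedBall_iff_norm.1 ((convex_closedBall _ _).segment_subset
        (mem_closedBall_iff_norm.2 (h.nv j)) (Metric.mem_closedBall_self (h.d.nn j)) k))) (n + 1)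
    (G := fun _ z => H (pr0 z)) (((Oj.cst pr0).cr h.d1).congr fun j => (ev_dif (h.s j)).mono
      fun z k => (pr0.hasFDerivAt.comp z k.hasFDerivAt).fderiv)
    ((Oj.cst pr0).congr' fun _ _ => pr0.fderiv) h.o
    (oj_st (half_pos h.r) (fun j => j.2) hH)
  rw [one_mul] at this
  exact this

/-- Nearby shifts. -/
theorem sh (s : Shp F G) {F' G' : J → ℝ → ℝ}
    (a : Oj (n + 1) (fun j => rd (y j (x j))) (fun j => F' j - F) μ)
    (b : Oj (n + 1) (fun j => rd (y j (x j))) (fun j => G' j - G) μ) :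
    Oj (n + 1) x (fun j z => P354YO.sh (F' j) (G' j) (y j z) - P354YO.sh F G z - (y j z - z)) μ := by
  have r := half_pos h.r
  have u := oj_sh (x := fun j => P354YO.sh F G (y j (x j))) r (by simpa only [rd_sh] using h.ry)
    (by simpa only [rd_sh] using a) (by simpa only [rd_sh] using b) fun j => (h.le j).1
  have w := Oj.comp h.s (n + 1) h.d1 (Oj.comp (f := fun _ => P354YO.sh F G)
    (fun j => s.sh (r.trans_le (h.ry j).1)) (n + 1) (s.d r h.ry n) u)
  refine (w.add (h.st (H := fun z => P354YO.sh F G z - z) fun _ k =>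
    (s.sh k).sub contDiffAt_id)).congr' fun j z => ?_
  simp only [sh_pr, sh_sh, sub_add_cancel]
  abel

end Nd

/-- Kerr is Lipschitz in the parameters. -/
theorem gin_lip (M a : ℝ) (h1 : 0 < r1) (hx : ∀ j, r1 ≤ rd (x j) ∧ rd (x j) ≤ ρ)
    {p p' : J → ℝ × ℝ} (h : ∀ j, ‖p j - (M, a)‖ ≤ 1) (h' : ∀ j, ‖p' j - (M, a)‖ ≤ 1)
    (d : ∀ j, ‖p j - p' j‖ ≤ μ j) :
    Oj m x (fun j => tb (gin (p j).1 (p j).2 - gin (p' j).1 (p' j).2)) μ := by
  let I : R4 →L[ℝ] ℝ × ℝ × R4 := (ContinuousLinearMap.inr ℝ ℝ _).comp (.inr ℝ ℝ _)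
  have s : ∀ (q : ℝ × ℝ) z, HasFDerivAt (fun z : R4 => (q.1, q.2, z)) I z := fun q z =>
    (hasFDerivAt_prodMk_right q.1 (q.2, z)).comp z (hasFDerivAt_prodMk_right q.2 z)
  have n := fun j => (norm_nonneg _).trans (d j)
  have := Oj.lip (f := fun j z => ((p j).1, (p j).2, z)) (f' := fun j z => ((p' j).1, (p' j).2, z))
    (x := x) (μ := μ) (ν := 1) (fun _ => by fun_prop) (fun _ => by fun_prop) (fun j z k => ?_) m
    ((Oj.cst I).congr' fun _ _ => (s _ _).fderiv) ((Oj.cst I).congr' fun _ _ => (s _ _).fderiv)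
    ((Oj.const (v := fun j => ((p j - p' j).1, (p j - p' j).2, (0 : R4))) n ⟨1, fun j => by
      simpa [Prod.norm_def] using d j⟩).congr' fun _ _ => by simp)
    (os_gin M a h1 ρ (m + 1))
  · rw [one_mul] at this
    exact this.congr' fun _ _ => tb_sub _ _ _
  have c : ∀ q : ℝ × ℝ, ‖q - (M, a)‖ ≤ 1 → (q.1, q.2, x j) ∈
      Icc (M - 1) (M + 1) ×ˢ Icc (a - 1) (a + 1) ×ˢ ({x j} : Set R4) := fun q e => by
    have e1 := abs_le.1 ((norm_fst_le (q - (M, a))).trans e)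
    have e2 := abs_le.1 ((norm_snd_le (q - (M, a))).trans e)
    simp only [Prod.fst_sub, Prod.snd_sub] at e1 e2
    exact ⟨⟨by linarith, by linarith⟩, ⟨by linarith, by linarith⟩, rfl⟩
  obtain ⟨k1, k2, k3⟩ := ((convex_Icc _ _).prod ((convex_Icc _ _).prod
    (convex_singleton _))).segment_subset (c _ (h j)) (c _ (h' j)) k
  exact ⟨k1, k2, (mem_singleton_iff.1 k3).symm ▸ hx j⟩

/-- The jets of the cut off are bounded. -/
theorem oj_cut (t : J → ℝ) (m : ℕ) : Oj m t (fun _ => Real.smoothTransition) 1 := by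
  have c : ContDiff ℝ ∞ Real.smoothTransition := Real.smoothTransition.contDiff
  obtain ⟨C, c0, hC⟩ := ex_jb m (isCompact_Icc (a := (0 : ℝ)) (b := 1)) fun _ _ => c.contDiffAt
  refine .of1 (B := max C 1) (fun _ => c.contDiffAt) fun j => ?_
  rcases lt_or_ge (t j) 0 with k | k
  · exact ((jb_const m (0 : ℝ) _).congr ((gt_mem_nhds k).mono fun _ e =>
      Real.smoothTransition.zero_of_nonpos e.le)).mono le_rfl (by simp)
  rcases lt_or_ge 1 (t j) with l | l
  · exact ((jb_const m (1 : ℝ) _).congr ((lt_mem_nhds l).mono fun _ e =>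
      Real.smoothTransition.one_of_one_le e.le)).mono le_rfl (by simp)
  · exact (hC _ ⟨k, l⟩).mono le_rfl (le_max_left _ _)

end family

theorem bd_cg {n : ℕ} {h k : Tw} {p : R4} {c : ℝ} (b : Bd n h p c) (e : k =ᶠ[𝓝 p] h) :
    Bd n k p c := fun i hi v w =>
  Jb.congr (fun k hk => b k hk v w) (e.mono fun x hx => by simp only [hx]) i hi

theorem pb_two {f f' : R4 → R4} {x : R4} (g : Tw) (h : DifferentiableAt ℝ f x)
    (h' : DifferentiableAt ℝ f' (f x)) : pb f (pb f' g) x = pb (fun z => f' (f z)) g x := by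
  funext v w
  simp only [pb, fderiv_fun_comp x h' h, ContinuousLinearMap.comp_apply]

end Vale.Agent.P354YS
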