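import Vale.Agent.P354HI.Props
import Vale.Agent.P354YI.Met

/-!
The jets of the metric are bounded by the jets of a null frame.
-/

set_option maxSynthPendingDepth 3

open scoped ContDiff
open Set Filter Topology Asymptotics

namespace Vale.Agent.P354YS

open Vale.Agent.P354n (R4)
open Vale.Agent.P354RC (cv bs sum_bs)
open Vale.Agent.P354XG Vale.Agent.P354XD Vale.Agent.P354XR
open Vale.Agent.P354XE (Tw)
open Vale.Agent.P354YA (KU sG fT gT sG_is fT_wn k0_of)
open Vale.Agent.P354Z (f4)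
open Vale.Agent.P354HI
open Vale.Agent.P354YI (Oj Jb el tb_eq ev_dif)

section alg
variable {A : Type} [CommRing A] [Algebra ℂ A] {S : Geo A} {F : Fr A}

/-- The dual frame. -/
def du (F : Fr A) : Fin 4 → Vec A := ![-F.n, -F.l, F.mb, F.m]

theorem du_span (s : S.Is) (n : F.Nl S) (b e : Fin 4) :
    ∑ i, (∑ c, S.g b c * du F i c) * fv F i e = if b = e then 1 else 0 := by
  have k := congrFun (Geo.Null.span s n (Pi.single b 1)) e
  rw [Pi.single_apply] at k
  simp only [eq_comm (a := b)]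
  rw [k, Fin.sum_univ_four]
  simp [Geo.dot, Pi.single_apply, du, fv]

variable {P ι : Type} {φ : P → A →ₐ[ℂ] ℂ} {l : Filter P} {D : ι → Der A} {N : ℕ}

theorem du_J (h : ∀ i d, J φ l D N (fun _ => o1) (fv F i d)) (i d : Fin 4) :
    J φ l D N (fun _ => o1) (du F i d) := by
  fin_cases i
  exacts [(h 1 d).neg, (h 0 d).neg, h 3 d, h 2 d]

end alg

/-- **GJ.** -/
theorem gj : GJ := by
  intro A P ι _ _ φ l D S F N s n h h0 b d
  cases N with
  | zero => exact .zero' (h0 b d)
  | succ m =>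
  let G : Matrix (Fin 4) (Fin 4) A := Matrix.of S.g
  let H : Matrix (Fin 4) (Fin 4) A := Matrix.of fun c e => ∑ i, du F i c * fv F i e
  have e1 : G * H = 1 := by
    ext b e
    rw [Matrix.one_apply, ← du_span s n b e]
    simp only [G, H, Matrix.mul_apply, Matrix.of_apply, Finset.mul_sum, Finset.sum_mul, mul_assoc]
    exact Finset.sum_comm
  have e2 := mul_eq_one_comm.1 e1
  have e3 : ∀ i, G.map (D i) = -(G * H.map (D i) * G) := fun i => by
    have : G.map (D i) * H + G * H.map (D i) = 0 := by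
      ext b e
      have := congrArg (D i) (congrFun (congrFun e1 b) e)
      simp only [Matrix.mul_apply, map_sum, D_mul, Matrix.one_apply] at this
      rw [show D i (if b = e then 1 else 0) = 0 by split_ifs <;> simp] at this
      simp only [Matrix.add_apply, Matrix.mul_apply, Matrix.map_apply, Matrix.zero_apply,
        ← Finset.sum_add_distrib, ← this]
      exact Finset.sum_congr rfl fun _ _ => by ring
    rw [← neg_mul, ← eq_neg_of_add_eq_zero_left this, mul_assoc, e2, mul_one]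
  refine J.clo (x := fun k : Fin 4 × Fin 4 => S.g k.1 k.2)
    (S := range fun k : ι × Fin 4 × Fin 4 => D k.1 (H k.2.1 k.2.2)) (fun k => h0 _ _)
    (forall_mem_range.2 fun k => J.d (α := fun _ => o1) (J.sum Finset.univ fun i _ =>
      (du_J h i k.2.1).bmul (h i k.2.2)) k.1) (fun k i => ?_) (b, d)
  rw [show D i (S.g k.1 k.2) = _ from congrFun (congrFun (e3 i) k.1) k.2]
  simp only [Matrix.neg_apply, Matrix.mul_apply]
  exact neg_mem (sum_mem fun e _ => mul_mem (sum_mem fun c _ => mul_mem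
    (Algebra.subset_adjoin (.inr ⟨(_, c), rfl⟩)) (Algebra.subset_adjoin (.inl ⟨(i, c, e), rfl⟩)))
    (Algebra.subset_adjoin (.inr ⟨(e, _), rfl⟩)))

theorem ej_all {P ι : Type} [Fintype ι] {l : Filter P} {N : ℕ} {f : ι → P → R4 → ℝ} {x : P → R4}
    (h : ∀ i, ∃ C, ∀ᶠ p in l, Jb N (f i p) (x p) C) :
    ∃ C, ∀ᶠ p in l, ∀ i, Jb N (f i p) (x p) C := by
  choose C hC using h
  exact ⟨∑ i, |C i|, eventually_all.2 fun i => (hC i).mono fun p k => k.mono le_rfl
    ((le_abs_self _).trans (Finset.single_le_sum (f := fun i => |C i|) (fun _ _ => abs_nonneg _)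
      (Finset.mem_univ i)))⟩

variable {K : Tw → Set E6} {l : Filter (Pz K)}

/-- From the words in the coordinate fields to the jets. -/
theorem jb_of_J (o : Off (nb ⊤ K)) (N : ℕ) {f : Tw → R4 → ℝ} (s : SmB (nb ⊤ K) f)
    (h : J (ev K) l (hp _).L N (fun _ => o1) (pb _ f)) :
    ∃ C, ∀ᶠ p in l, Jb N (f p.1.1) (pj p.1.2) C := by
  have z : ∀ {f : Tw → R4 → ℝ}, SmB (nb ⊤ K) f → O (ev K) l o1 (pb _ f) →
      ∃ C, ∀ᶠ p in l, ‖f p.1.1 (pj p.1.2)‖ ≤ C := fun s h =>
    (isBigO_iff.1 h).imp fun C c => c.mono fun p k => by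
      rw [show ev K p _ = _ from ev_pz K (rs_pb o s) p] at k
      simpa using k
  induction N generalizing f with
  | zero => exact (z s h.val).imp fun C c => c.mono fun p k => .of_zero k
  | succ N ih =>
    obtain ⟨C, hC⟩ := z s h.val
    obtain ⟨B, hB⟩ := ej_all fun a => ih (s.db a) (L_pb o s a ▸ h.d a)
    let I := {p : Pz K // ∀ a, Jb N (db a (f p.1.1)) (pj p.1.2) B}
    obtain ⟨E, -, hE⟩ := (Oj.sum Finset.univ (fun _ => zero_le_one) fun a _ => (Oj.of1
      (fun p : I => eventually_top.1 (ev_nb_on (s.db a)) _ _ p.1.2) fun p => p.2 a).clm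
        ((ContinuousLinearMap.id ℝ ℝ).smulRight (cv a))).bd
    refine ⟨max C (E * 1), (hC.and hB).mono fun p k => .succ (le_max_of_le_left k.1)
      (((hE ⟨p, k.2⟩).congr (.of_forall fun y => ContinuousLinearMap.ext fun v => ?_)).mono le_rfl
        (le_max_right _ _))⟩
    conv_lhs => rw [← sum_bs v]
    simp [db, mul_comm]

/-- **CONV.** -/
theorem conv : CONV := by
  intro M a K l N h h1 h0
  have s := sG_is (g := id) h
  have w := (fT_wn (g := id) h).1
  have k0 := k0_of (g := id) h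
  have o : Off (nb ⊤ K) := Pos.off (k0.mono fun _ k => k.1)
  have j := gj _ _ _ _ _ _ _ _ N s w.nl h1 h0
  have c : ∀ b d, J (ev K) l (hp _).L N (fun _ => o1) ((sG (nb ⊤ K) id).g b d) := fun b d => by
    refine J.chg (C := Bs K) (u := fun k i => ∑ c, (sG (nb ⊤ K) id).g k c * du (fT _ M a id) i c)
      (fun k f m => ⟨⟨(s.HL k f).trans ?_, (s.HbL k f).trans ?_⟩, ?_⟩)
      (fun k i => .sum _ fun c _ => (j k c).bmul (du_J h1 i c)) ⟨s.H_g b d, s.Hb_g b d⟩
      N.le_succ (j b d)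
    · exact (congrArg _ m.1).trans (D_zero _)
    · exact (congrArg _ m.2).trans (D_zero _)
    have e : ∀ i, f4 (gT (nb ⊤ K) M a id) i f = ∑ e, fv (fT _ M a id) i e * (hp _).L e f :=
      fun i => by
        fin_cases i <;> exact ((sG (nb ⊤ K) id).act_apply _ f).trans (by
          rw [show (sG (nb ⊤ K) id).H f = 0 from m.1, show (sG (nb ⊤ K) id).Hb f = 0 from m.2,
            mul_zero, mul_zero, add_zero, add_zero]
          rfl)
    simp only [e, Finset.mul_sum, ← mul_assoc]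
    rw [Finset.sum_comm]
    simp only [← Finset.sum_mul, du_span s w.nl]
    simp
  have sm : ∀ b d, SmB (nb ⊤ K) fun g => gc g b d := fun b d => k0.mono fun _ k => k.2.sm_g b d
  obtain ⟨B, hB⟩ := ej_all fun i : Fin 4 × Fin 4 => jb_of_J (l := l) o N (sm i.1 i.2) (by
    have := (J.alg 2).bmul (c i.1 i.2)
    rwa [show (sG (nb ⊤ K) id).g i.1 i.2 = algebraMap ℂ _ ((1 / 2 : ℝ) : ℂ) * pb _ _ from rfl,
      ← mul_assoc, ← map_mul, show (2 : ℂ) * (1 / 2 : ℝ) = 1 by norm_num, map_one, one_mul] at this)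
  let I := {p : Pz K // ∀ i : Fin 4 × Fin 4, Jb N (gc p.1.1 i.1 i.2) (pj p.1.2) B}
  obtain ⟨C, -, hC⟩ := (Oj.sum Finset.univ (fun _ => zero_le_one) fun b _ =>
    Oj.sum Finset.univ (fun _ => zero_le_one) fun d _ => (Oj.of1
      (fun p : I => eventually_top.1 (ev_nb_on (sm b d)) _ _ p.1.2) fun p => p.2 (b, d)).clm
        (el ℝ b d)).bd' (g := fun p => p.1.1.1) fun p => by
      obtain ⟨D, d1, d2, d3, -⟩ := (eventually_top.1 (ev_nb_on k0) _ _ p.1.2).2
      filter_upwards [d1.mem_nhds d2] with y hy v w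
      exact ((rp_tb d1 d3).eq y hy v w).trans (by rw [tb_eq]; rfl)
  exact ⟨_, hB.mono fun p k => hC ⟨p, k⟩⟩

end Vale.Agent.P354YS
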