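import Vale.Agent.P354YS.PhiA

/-!
The near chart in the straight coordinates.
-/

set_option maxSynthPendingDepth 3

open scoped ContDiff
open Set Filter Topology

namespace Vale.Agent.P354YS

open Vale.Agent.P354n (R4)
open Vale.Agent.P354XE (Tw gin rd pb Bd)
open Vale.Agent.P354XD (tb)
open Vale.Agent.P354XA (rd_cd rd_cont)
open Vale.Agent.P354YI Vale.Agent.P354YO Vale.Agent.P354MG

theorem ev_rdp {f : R4 → R4} {q : R4} (c : ContinuousAt f q) (h : 0 < rd (f q)) :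
    ∀ᶠ x in 𝓝 q, 0 < rd (f x) := (rd_cont.continuousAt.comp c).eventually (lt_mem_nhds h)

theorem le_sum {C D E ν : ℝ} (c : 0 ≤ C) (d : 0 ≤ D) (e : 0 ≤ E) (n : 0 ≤ ν) :
    C * ν ≤ (C + D + E + 1) * ν ∧ D * ν ≤ (C + D + E + 1) * ν ∧ E * ν ≤ (C + D + E + 1) * ν ∧
      ν + D * ν ≤ (C + D + E + 1) * ν := by
  have := mul_nonneg c n
  have := mul_nonneg d n
  have := mul_nonneg e n
  exact ⟨by linarith, by linarith, by linarith, by linarith⟩

/-- The data. -/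
structure Da where
  g : Tw
  y : R4 → R4
  (M a : ℝ)
  (A B : ℝ → ℝ)
  p : ℝ × ℝ
  q : R4
  (μ ν : ℝ)

/-- **PHA.** -/
theorem pha : PHA := by
  intro M a r1 R ρ A B n ha h1 hR t
  have h0 : 0 < M := (abs_nonneg a).trans_lt ha
  let S := st4 M A B
  let J := {j : Da // Nth M R j.M j.a A B j.A j.B ∧ |j.M - M| + |j.a - a| ≤ j.ν ∧
    ‖j.p - (j.M, j.a)‖ ≤ j.μ ∧ j.μ ≤ j.ν ∧ j.ν ≤ min (1 / 2) (r1 / 4) ∧ r1 ≤ rd j.q ∧ rd j.q ≤ ρ ∧
    Sb j.g (S j.q) ∧ Nid n j.y (S j.q) j.ν ∧ Bd n (j.g - pb j.y (gin j.p.1 j.p.2)) (S j.q) j.μ}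
  have s := sp_of h0 t
  have s' := fun j : J => sp_of h0 j.2.1.th
  have l1 := fun j : J => j.2.2.2.2.2.1.trans (min_le_left _ _)
  have hq := fun j : J => And.intro j.2.2.2.2.2.2.1 j.2.2.2.2.2.2.2.1
  have ni := fun j : J => j.2.2.2.2.2.2.2.2.2.1
  have sS := fun j : J => s.sh (h1.trans_le (hq j).1)
  have N : Nd n r1 ρ (fun j : J => S j.1.q) (fun j => j.1.y) fun j => j.1.ν :=
    ⟨h1, by simpa only [S, st4, rd_sh] using hq, fun j => (ni j).sm,
      .of (fun j => (at_fd (ni j).sm).sub contDiffAt_const) fun j => (ni j).d, fun j => (ni j).x,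
      fun j => ⟨by linarith [l1 j], j.2.2.2.2.2.1.trans (min_le_right _ _)⟩⟩
  have ry := fun j => (half_pos h1).trans_le (N.ry j).1
  obtain ⟨k1, k2⟩ := nth_oj (m := n + 1) (r0 := r1 / 2) h0 t (by linarith) (fun j : J => j.2.1)
    (fun j => j.2.2.1) (fun j => (N.le j).1) N.ry
  have w := Oj.comp sS (n + 1) (s.d h1 hq n) (N.sh s.neg
    (F' := fun j => -fun r => j.1.A r - 4 * M ^ 2 / r) (G' := fun j => -j.1.B)
    (k1.congr' fun j r => by simp) (k2.congr' fun j r => by simp [neg_add_eq_sub]))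
  simp only [sh_inv] at w
  have ev : ∀ j : J, ∀ᶠ x in 𝓝 j.1.q, ContDiffAt ℝ ∞ S x ∧ ContDiffAt ℝ ∞ j.1.y (S x) ∧
      0 < rd (j.1.y (S x)) := fun j =>
    ((ev_rdp continuousAt_id (h1.trans_le (hq j).1)).mono fun _ => s.sh).and
      (((sS j).continuousAt.eventually (ni j).ev).and
        (ev_rdp ((ni j).sm.comp _ (sS j)).continuousAt (ry j)))
  have cφ : ∀ j : J, ∀ᶠ x in 𝓝 j.1.q, ContDiffAt ℝ ∞ (phN M A B j.1.A j.1.B j.1.y) x := fun j =>
    (ev j).mono fun x k => ((s' j).neg.sh k.2.2).comp x (k.2.1.comp x k.1)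
  obtain ⟨C, c0, hC⟩ := ((((Oj.comp sS n (s.d h1 hq _) N.d).cl (s.d h1 hq n)).add w.fd).congr
    (g := fun j x => fderiv ℝ (phN M A B j.1.A j.1.B j.1.y) x - ContinuousLinearMap.id ℝ R4)
    fun j => by
      filter_upwards [ev j, cφ j] with x k c
      have a1 := (k.1.differentiableAt (by simp)).hasFDerivAt
      have a2 := (k.2.1.differentiableAt (by simp)).hasFDerivAt.comp x a1
      refine Eq.trans ?_ (congrArg (_ + ·) (((c.differentiableAt (by simp)).hasFDerivAt.fun_sub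
        (hasFDerivAt_id x)).fun_sub (a2.fun_sub a1)).fderiv.symm)
      rw [ContinuousLinearMap.sub_comp, ContinuousLinearMap.id_comp]
      exact (add_sub_cancel _ _).symm).bd
  obtain ⟨D, d0, hD⟩ := w.val
  have b1 : ∀ j : J, ‖(j.1.M, j.1.a) - (M, a)‖ ≤ j.1.ν := fun j =>
    (max_le_add_of_nonneg (abs_nonneg _) (abs_nonneg _)).trans j.2.2.1
  have sg := fun (j : J) (u v : ℝ) => (sb_gin (M := u) (a := v) (ry j)).pull (ni j).sm
  have g1 := oj_of_bd (fun j : J => j.2.2.2.2.2.2.2.2.1.sub (sg j _ _))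
    fun j => j.2.2.2.2.2.2.2.2.2.2
  have g2 := oj_pb N.s N.d1 (fun j => (sb_gin (ry j)).sub (sb_gin (ry j)))
    (gin_lip (p := fun j : J => j.1.p) (p' := fun j => (j.1.M, j.1.a)) M a (half_pos h1) N.ry
      (fun j => (norm_sub_le_norm_sub_add_norm_sub _ _ _).trans
        (by linarith [b1 j, l1 j, j.2.2.2.1, j.2.2.2.2.1]))
      (fun j => by linarith [b1 j, l1 j]) fun j => j.2.2.2.1)
  have sh' := fun j : J => j.2.2.2.2.2.2.2.2.1.sub (sg j j.1.M j.1.a)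
  obtain ⟨E, e0, hE⟩ := bd_of_oj (fun j => (sh' j).pull (sS j)) (oj_pb sS (s.d h1 hq n) sh'
    ((g1.add g2).congr' fun j z => by
      rw [show pb j.1.y (_ - _) = pb j.1.y _ - pb j.1.y _ from rfl, tb_sub, tb_sub, tb_sub,
        sub_add_sub_cancel]))
  refine ⟨C + D + E + 1, min (1 / 2) (r1 / 4), by positivity,
    fun g y M' a' A' B' p q μ ν u1 u2 u3 u4 u5 u6 u7 u8 u9 u10 => ?_⟩
  let j : J := ⟨⟨g, y, M', a', A', B', p, q, μ, ν⟩, u1, u2, u3, u4, u5, u6, u7, u8, u9, u10⟩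
  obtain ⟨m1, m2, -, m4⟩ := le_sum c0 d0 e0 (N.d.nn j)
  have e : phN M A B A' B' y q - q = y (S q) - S q +
      (phN M A B A' B' y q - q - (y (S q) - S q)) := (add_sub_cancel _ _).symm
  refine ⟨⟨cφ j, (hC j).mono le_rfl m1, ?_⟩, ?_, bd_mono (bd_cg (hE j) ?_) le_rfl
    (le_sum c0 d0 e0 (g1.nn j)).2.2.1⟩
  · rw [e, Prod.snd_add]
    exact (norm_add_le_of_le u9.x ((norm_snd_le _).trans (hD j))).trans m4
  · rw [e, Prod.fst_add]
    exact (abs_add_le _ _).trans (add_le_add le_rfl (((norm_fst_le _).trans (hD j)).trans m2))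
  · filter_upwards [ev j, cφ j] with x k c
    refine congrArg (pb S g x - ·) (show _ = pb S (pb y (gin M' a')) x from ?_)
    have d : ∀ {f : R4 → R4} {z}, ContDiffAt ℝ ∞ f z → DifferentiableAt ℝ f z := fun h =>
      h.differentiableAt (by simp)
    refine (pb_two (f := phN M A B A' B' y) (f' := st4 M A' B') _ (d c) (d ((s' j).sh (by
      simpa only [phN, ts4, rd_sh] using k.2.2)))).trans
        (Eq.trans ?_ (pb_two (f := S) (f' := y) _ (d k.1) (d k.2.1)).symm)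
    simp only [phN, ts4, st4, sh_inv', S]

theorem Shp.pull {F G : ℝ → ℝ} (s : Shp F G) {r1 : ℝ} (h1 : 0 < r1) (ρ : ℝ) (n : ℕ) :
    ∃ C, 0 ≤ C ∧ ∀ (h : Tw) q w, r1 ≤ rd q → rd q ≤ ρ → Sb h (P354YO.sh F G q) →
      Bd n h (P354YO.sh F G q) w → Bd n (pb (P354YO.sh F G) h) q (C * w) := by
  let J := {j : Tw × R4 × ℝ // (r1 ≤ rd j.2.1 ∧ rd j.2.1 ≤ ρ) ∧ Sb j.1 (P354YO.sh F G j.2.1) ∧
    Bd n j.1 (P354YO.sh F G j.2.1) j.2.2}
  have c := fun j : J => s.sh (h1.trans_le j.2.1.1)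
  obtain ⟨C, c0, hC⟩ := bd_of_oj (fun j : J => j.2.2.1.pull (c j)) (oj_pb c
    (s.d h1 (fun j => j.2.1) n) (fun j => j.2.2.1) (oj_of_bd (fun j => j.2.2.1) fun j => j.2.2.2))
  exact ⟨C, c0, fun h q w a b c d => hC ⟨(h, q, w), ⟨a, b⟩, c, d⟩⟩

/-- **PHB.** -/
theorem phb : PHB := by
  intro M a r1 R ρ A B n ha h1 hR t
  have h0 : 0 < M := (abs_nonneg a).trans_lt ha
  have s := sp_of h0 t
  let I := {j : (R4 → R4) × ℝ × R4 × ℝ // j.2.2.2 ≤ min 1 (r1 / 4) ∧ r1 ≤ rd j.2.2.1 ∧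
    rd j.2.2.1 ≤ ρ ∧ Nid n j.1 j.2.2.1 j.2.2.2 ∧ |(j.1 j.2.2.1 - j.2.2.1).1| ≤ j.2.2.2}
  have ni := fun j : I => j.2.2.2.2.1
  have hq := fun j : I => And.intro j.2.2.1 j.2.2.2.1
  have le := fun j : I => le_min_iff.1 j.2.1
  have o0 : Oj (n + 1) (fun j : I => j.1.2.2.1) (fun j x => j.1.1 x - x) fun j => j.1.2.2.2 :=
    .of (fun j => (ni j).sm.sub contDiffAt_id) fun j => .succ (max_le j.2.2.2.2.2 (ni j).x)
      ((ni j).d.congr ((ev_dif (ni j).sm).mono fun x k => (k.hasFDerivAt.fun_sub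
        (hasFDerivAt_id x)).fderiv))
  have o : Oj (n + 1) (fun j : I => j.1.2.2.1) (fun j x => phB j.1.2.1 j.1.1 x - x)
      fun j => j.1.2.2.2 := ((Oj.comp (f := fun (j : I) (x : R4) => x.1 - j.1.2.1)
        (fun _ => contDiffAt_fst.sub contDiffAt_const) (n + 1) ((Oj.cst (.fst ℝ _ _)).congr'
          fun _ _ => (hasFDerivAt_fst.sub_const _).fderiv) (oj_cut _ _)).smulr o0).congr'
      fun _ _ => add_sub_cancel_left _ _
  have N : Nd n r1 ρ (fun j : I => j.1.2.2.1) (fun j => phB j.1.2.1 j.1.1) fun j => j.1.2.2.2 :=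
    ⟨h1, hq, (oj_fd o).1, (oj_fd o).2, fun j => by
      rw [phB, add_sub_cancel_left, Prod.smul_snd, norm_smul,
        Real.norm_of_nonneg (Real.smoothTransition.nonneg _)]
      exact (mul_le_of_le_one_left (norm_nonneg _) (Real.smoothTransition.le_one _)).trans
        (ni j).x, le⟩
  have ce : ∀ z, 0 < rd z → ContDiffAt ℝ ∞ er4 z := fun z k =>
    contDiffAt_const.prodMk (((rd_cd k.ne').inv k.ne').smul contDiffAt_snd)
  obtain ⟨C, c0, hC⟩ := N.d.bd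
  obtain ⟨D, d0, hD⟩ := o.bd
  obtain ⟨E, e0, hE⟩ := (((N.d.apl (oj_st h1 hq ce)).sub
    (N.st ce).pred).congr' (g := fun j => dfc (phB j.1.2.1 j.1.1) 1) fun j z => by
      simp only [dfc, one_smul, show ∀ z, er4 (pr0 z) = er4 z from fun _ => rfl,
        sub_apply, ContinuousLinearMap.id_apply]
      abel).bd
  let K := {k : I × ℝ × ℝ × (ℝ → ℝ) × (ℝ → ℝ) // Nth M R k.2.1 k.2.2.1 A B k.2.2.2.1 k.2.2.2.2 ∧
    |k.2.1 - M| + |k.2.2.1 - a| ≤ k.1.1.2.2.2}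
  have N' : Nd n r1 ρ (fun k : K => k.1.1.1.2.2.1) (fun k => phB k.1.1.1.2.1 k.1.1.1.1)
      fun k => k.1.1.1.2.2.2 := ⟨h1, fun _ => hq _, fun _ => N.s _, N.d.ix fun k : K => k.1.1,
        fun _ => N.v _, fun _ => le _⟩
  obtain ⟨k1, k2⟩ := nth_oj (m := n + 1) (r0 := r1 / 2) h0 t (by linarith) (fun k : K => k.2.1)
    (fun k => k.2.2) (fun k => (le _).1) N'.ry
  have hS : ∀ j : I, r1 ≤ rd (st4 M A B j.1.2.2.1) ∧ rd (st4 M A B j.1.2.2.1) ≤ ρ := by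
    simpa only [st4, rd_sh] using hq
  obtain ⟨L, l0, hL⟩ := (Oj.comp (x := fun k : K => st4 M A B k.1.1.1.2.2.1)
    (f := fun _ => ts4 M A B) (fun k => s.neg.sh (h1.trans_le (hS _).1)) (n + 1)
    (s.neg.d h1 (fun _ => hS _) n) (μ := fun k => k.1.1.1.2.2.2)
    (G := fun k z => st4 M k.1.2.2.2.1 k.1.2.2.2.2 (phB k.1.1.1.2.1 k.1.1.1.1 z) - st4 M A B z) (by
      simp only [ts4, st4, sh_inv]
      exact ((N'.sh s (F' := fun k r => k.1.2.2.2.1 r - 4 * M ^ 2 / r) (G' := fun k => k.1.2.2.2.2)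
        (k1.symm.congr' fun j r => by simp) k2.symm).add (o.ix fun k : K => k.1.1)).congr'
          fun _ _ => (sub_add_cancel _ _).symm)).bd
  obtain ⟨P, p0, hP⟩ := pull_gin M a h1 ρ n
  obtain ⟨Q, q0, hQ⟩ := s.pull h1 ρ n
  have m0 : 0 < min 1 (r1 / 4) := by positivity
  refine ⟨C + D + E + 1 + Q * (1 + P * (L + 1)), min 1 (r1 / 4) / (L + 1), by positivity,
    fun φ ti q ν u1 u2 u3 u4 u5 => ?_⟩
  have n0 := u4.d.nonneg
  have u0 := (le_div_iff₀' (by positivity)).1 u1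
  let j : I := ⟨(φ, ti, q, ν), le_trans (by nlinarith) u0, u2, u3, u4, u5⟩
  obtain ⟨m1, m2, m3, m4⟩ := le_sum c0 d0 e0 n0
  have z : (C + D + E + 1) * ν ≤ (C + D + E + 1 + Q * (1 + P * (L + 1))) * ν :=
    mul_le_mul_of_nonneg_right (le_add_of_nonneg_right (by positivity)) n0
  have rq := h1.trans_le u2
  have cψ : ∀ᶠ x in 𝓝 q, ContDiffAt ℝ ∞ (phB ti φ) x := u4.ev.mono fun x k =>
    contDiffAt_id.add ((Real.smoothTransition.contDiffAt.comp x
      (contDiffAt_fst.sub contDiffAt_const)).smul (k.sub contDiffAt_id))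
  refine ⟨⟨cψ, (hC j).mono le_rfl (m1.trans z), (N.v j).trans (le_trans (le_add_of_nonneg_right
    (mul_nonneg d0 n0)) (m4.trans z))⟩, (hD j).mono le_rfl (m2.trans z),
    (hE j).mono le_rfl (m3.trans z), fun g M' a' A' B' v1 v2 v3 v4 => ?_⟩
  have s' := sp_of h0 v1.th
  have rψ := (half_pos h1).trans_le (N.ry j).1
  let θ : R4 → R4 := fun z => st4 M A' B' (phB ti φ (ts4 M A B z))
  have cθ : ∀ x, 0 < rd x → ContDiffAt ℝ ∞ (phB ti φ) x → 0 < rd (phB ti φ x) →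
      ContDiffAt ℝ ∞ θ (st4 M A B x) := fun x a b c =>
    ContDiffAt.comp (g := fun z => st4 M A' B' (phB ti φ z)) _ (by
      simp only [ts4, st4, sh_inv]
      exact (s'.sh c).comp x b) (s.neg.sh (by rwa [st4, rd_sh]))
  have c1 := cθ q rq cψ.self_of_nhds rψ
  have sθ : Sb (pb θ (gin M' a')) (st4 M A B q) := (sb_gin (by
    simpa only [θ, ts4, st4, sh_inv, rd_sh] using rψ)).pull c1
  have k : ν ≤ (L + 1) * ν := by nlinarith
  have b := hP θ M' a' _ ((L + 1) * ν) c1 (((hL ⟨(j, M', a', A', B'), v1, v2⟩).congr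
    (.of_forall fun z => by simp only [θ, ts4, st4, sh_inv', j])).mono le_rfl (by nlinarith))
    (u0.trans (min_le_left _ _)) (by linarith [u0.trans (min_le_right _ _)])
    (by linarith [abs_nonneg (a' - a)]) (by linarith [abs_nonneg (M' - M)]) (hS j).1 (hS j).2
  refine bd_mono (bd_cg (hQ _ q _ u2 u3 (v3.sub sθ) (bd_tri v3 (sb_gin (h1.trans_le (hS j).1)) sθ
    v4 (bd_symm b))) ?_) le_rfl (by nlinarith [mul_nonneg (show 0 ≤ C + D + E + 1 by positivity) n0])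
  filter_upwards [cψ, ev_rdp continuousAt_id rq, ev_rdp cψ.self_of_nhds.continuousAt rψ]
    with x a b c
  refine congrArg (pb (st4 M A B) g x - ·) (show _ = pb (st4 M A B) (pb θ (gin M' a')) x from ?_)
  have d : ∀ {f : R4 → R4} {z}, ContDiffAt ℝ ∞ f z → DifferentiableAt ℝ f z := fun h =>
    h.differentiableAt (by simp)
  refine (pb_two (f := phB ti φ) (f' := st4 M A' B') _ (d a) (d (s'.sh c))).trans (Eq.trans ?_
    (pb_two (f := st4 M A B) (f' := θ) _ (d (s.sh b)) (d (cθ x b a c))).symm)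
  simp only [θ, ts4, st4, sh_inv, id]

end Vale.Agent.P354YS
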