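import Vale.Agent.P354UR.EBase
import Vale.Agent.P354YI.Met

/-!
Close coframes give an almost isometry.
-/

set_option maxSynthPendingDepth 3

open scoped ContDiff
open Set Filter Topology

namespace Vale.Agent.P354YS

open Vale.Agent.P354n (R4 mink)
open Vale.Agent.P354R (Met)
open Vale.Agent.P354XE
open Vale.Agent.P354XU (L4 Jt Fr th)
open Vale.Agent.P354YM
open Vale.Agent.P354UR
open Vale.Agent.P354YI

variable {g : Tw} {D Ω K : Set R4} {b Ψ : R4 → R4} {E θ : R4 → L4} {p y : R4}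

theorem th_cd (F : Fr g D Ω b E) (M : Met g D) (m : p ∈ Ω) : ContDiffAt ℝ ∞ (th b E) p :=
  (at_comp (Fr.inv F M m).contDiffAt_map_inverse (Fr.atE F m)).clm_comp (at_fd (Fr.atb F m))

theorem fd_th (F : Fr g D Ω b E) (M : Met g D) (h : DifferentiableAt ℝ Ψ y) (m : Ψ y ∈ Ω)
    (v : R4) : fderiv ℝ (b ∘ Ψ) y v = E (Ψ y) (th b E (Ψ y) (fderiv ℝ Ψ y v)) := by
  rw [fderiv_comp y ((Fr.atb F m).differentiableAt (by simp)) h, ← Fr.db F M m]
  rfl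

theorem pb_th (F : Fr g D Ω b E) (M : Met g D) (h : DifferentiableAt ℝ Ψ y) (m : Ψ y ∈ Ω)
    (v w : R4) : pb (b ∘ Ψ) g y v w =
      mink (th b E (Ψ y) (fderiv ℝ Ψ y v)) (th b E (Ψ y) (fderiv ℝ Ψ y w)) := by
  rw [pb, fd_th F M h m, fd_th F M h m]
  exact F.on _ m _ _

/-- The bound for the difference of the metrics. -/
theorem cl_bd (n : ℕ) (hK : IsCompact K) (hΨ : ∀ q ∈ K, ContDiffAt ℝ ∞ Ψ q)
    (hθ : ∀ q ∈ K, ContDiffAt ℝ ∞ θ (Ψ q)) : ∃ C, 0 ≤ C ∧ ∀ (h : Tw) (θ' : R4 → L4) (ε : ℝ),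
      ∀ q ∈ K, ε ≤ 1 → ContDiffAt ℝ ∞ θ' (Ψ q) → Jt n (fun x => θ' x - θ x) (Ψ q) ε →
      (∀ᶠ y in 𝓝 q, ∀ v w, h y v w =
        mink (θ' (Ψ y) (fderiv ℝ Ψ y v)) (θ' (Ψ y) (fderiv ℝ Ψ y w)) -
        mink (θ (Ψ y) (fderiv ℝ Ψ y v)) (θ (Ψ y) (fderiv ℝ Ψ y w))) → Bd n h q (C * ε) := by
  let J := {j : Tw × (R4 → L4) × ℝ × R4 // j.2.2.2 ∈ K ∧ j.2.2.1 ≤ 1 ∧
    ContDiffAt ℝ ∞ j.2.1 (Ψ j.2.2.2) ∧ Jt n (fun x => j.2.1 x - θ x) (Ψ j.2.2.2) j.2.2.1 ∧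
    ∀ᶠ y in 𝓝 j.2.2.2, ∀ v w, j.1 y v w =
      mink (j.2.1 (Ψ y) (fderiv ℝ Ψ y v)) (j.2.1 (Ψ y) (fderiv ℝ Ψ y w)) -
      mink (θ (Ψ y) (fderiv ℝ Ψ y v)) (θ (Ψ y) (fderiv ℝ Ψ y w))}
  have s := fun j : J => hΨ _ j.2.1
  have d : ∀ m, Oj m (fun j : J => j.1.2.2.2) (fun _ => fderiv ℝ Ψ) 1 := fun m =>
    .fix hK (fun q hq => at_fd (hΨ q hq)) fun j => j.2.1
  have a0 : Oj n (fun j : J => Ψ j.1.2.2.2) (fun j x => j.1.2.1 x - θ x) fun j => j.1.2.2.1 :=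
    .of (fun j => j.2.2.2.1.sub (hθ _ j.2.1)) fun j => j.2.2.2.2.1
  have b0 : Oj n (fun j : J => Ψ j.1.2.2.2) (fun _ => θ) 1 :=
    .fix (hK.image_of_continuousOn fun q hq => (hΨ q hq).continuousAt.continuousWithinAt)
      (forall_mem_image.2 hθ) fun j => mem_image_of_mem _ j.2.1
  have a := (Oj.comp s n (d _) a0).cl (d n)
  have b := (Oj.comp s n (d _) b0).cl (d n)
  have c := (a.mono (ν := 1) le_rfl fun j => j.2.2.1).add b
  obtain ⟨C, c0, hC⟩ := ((((Oj.cst mB).cr a).flip.cl c).flip.add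
    (((Oj.cst mB).cr b).flip.cr a).flip).bd' (g := fun j => j.1.1) fun j =>
      j.2.2.2.2.2.mono fun y k v w => by
        rw [k, ← mB_ap, ← mB_ap]
        simp
  exact ⟨C, c0, fun h θ' ε q h1 h2 h3 h4 h5 => hC ⟨(h, θ', ε, q), h1, h2, h3, h4, h5⟩⟩

/-- The uniform lower bound. -/
theorem low_bd (hK : IsCompact K) (hθ : ∀ p ∈ K, ContDiffAt ℝ ∞ θ p ∧ (θ p).IsInvertible) :
    ∃ C, 0 ≤ C ∧ ∀ p ∈ K, ∀ v, ‖v‖ ≤ C * ‖θ p v‖ := by
  obtain ⟨C, c0, hC⟩ := ex_jb 0 hK fun p hp =>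
    at_comp (hθ p hp).2.contDiffAt_map_inverse (hθ p hp).1
  refine ⟨C, c0, fun p hp v => ?_⟩
  have := (θ p).inverse.le_of_opNorm_le (hC p hp).zero (θ p v)
  rwa [(hθ p hp).2.inverse_apply_self] at this

theorem tl_norm {u : R4} (k : mink u u ≤ 0) (k' : 0 < u.1) : ‖u‖ ≤ u.1 := by
  simp only [mink, P354n.cu, P354n.cv, P354n.c1, P354n.c2] at k
  simp only [Prod.norm_def, max_le_iff, Real.norm_eq_abs, abs_le]
  refine ⟨⟨by linarith, le_rfl⟩, ⟨?_, ?_⟩, ⟨?_, ?_⟩, ?_, ?_⟩ <;>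
    nlinarith [mul_self_nonneg u.2.1, mul_self_nonneg u.2.2.1, mul_self_nonneg u.2.2.2]

/-- The components of a future timelike vector in the frame. -/
theorem ft_pos {Xf c : R4 → R4} {d : P354I.Dat} (L : Lor g D Xf) (R : Ro g D Xf d c Ω b E)
    (hp : p ∈ Ω) {u : R4} (h : Ft g Xf (b p) (E p u)) : mink u u < 0 ∧ 0 < u.1 := by
  have m := R.rol.maps hp
  have a : mink u u < 0 := (R.rol.on p hp u u).symm.trans_lt h.1
  refine ⟨a, ?_⟩
  by_contra! n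
  have e : mink (-u) (-u) = mink u u := by simp [mink, P354n.cu, P354n.cv, P354n.c1, P354n.c2]
  have k := Ro.cone L R hp (e.trans_le a.le) (neg_pos.2 (n.lt_of_ne fun z => by
    simp only [mink, P354n.cu, P354n.cv, P354n.c1, P354n.c2, z] at a
    nlinarith [mul_self_nonneg u.2.1, mul_self_nonneg u.2.2.1, mul_self_nonneg u.2.2.2]))
  rw [map_neg, L.met.symm _ m, (L.met.lin _ m _).map_neg, L.met.symm _ m] at k
  linarith [h.2]

/-- **TE.** -/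
theorem te : TE := by
  intro n W g Xf τ V d c Ω Φ Ψ E L S η η0
  have M := L.lor.met
  have F := S.ro.rol.toFr
  have im : ∀ q ∈ Φ '' Ω, Ψ q ∈ Ω ∧ Φ (Ψ q) = q := by
    rintro _ ⟨p, hp, rfl⟩
    rw [S.left p hp]
    exact ⟨hp, rfl⟩
  have sΨ : ∀ q ∈ Φ '' Ω, ContDiffAt ℝ ∞ Ψ q := fun q hq => S.sm.contDiffAt (S.opn.mem_nhds hq)
  have idq : ∀ q ∈ Φ '' Ω, ∀ w, fderiv ℝ (Φ ∘ Ψ) q w = w := fun q hq w => by
    rw [EventuallyEq.fderiv_eq (show Φ ∘ Ψ =ᶠ[𝓝 q] id from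
      (S.opn.eventually_mem hq).mono fun y k => (im y k).2), fderiv_id]
    rfl
  have dΨ := fun q hq => (sΨ q hq).differentiableAt (by simp)
  obtain ⟨C, c0, hC⟩ := cl_bd n L.cpt (fun q hq => sΨ q (S.onto hq)) fun q hq =>
    th_cd F M (im q (S.onto hq)).1
  obtain ⟨B, b0, hB⟩ := low_bd (θ := th Φ E) (L.cpt.image_of_continuousOn fun q hq =>
    (sΨ q (S.onto hq)).continuousAt.continuousWithinAt) (forall_mem_image.2 fun q hq =>
      have m := (im q (S.onto hq)).1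
      ⟨th_cd F M m, inv_of ((Fr.inv F M m).inverse.injective.comp (S.loc _ m))⟩)
  let ε := min (η / (C + 1)) (1 / (2 * (B + 1)))
  have e1 : C * ε ≤ η := by
    have := (le_div_iff₀ (by positivity)).1 (min_le_left (η / (C + 1)) (1 / (2 * (B + 1))))
    nlinarith [show 0 < ε by positivity]
  have e2 : ε * (2 * (B + 1)) ≤ 1 := (le_div_iff₀ (by positivity)).1 (min_le_right _ _)
  have e0 : 0 < ε := by positivity
  refine ⟨ε, e0, fun V' hV g' D' X' d' Ω' b' E' L' R' H => ?_⟩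
  have F' := R'.rol.toFr
  have sub : KV W τ V' ⊆ KV W τ V := fun q hq => ⟨hq.1, hq.2.1, hq.2.2.trans hV⟩
  have H' := fun q (hq : q ∈ KV W τ V') => H _ (im q (S.onto (sub hq))).1
    ((im q (S.onto (sub hq))).2.symm ▸ hq)
  have o : IsOpen (Φ '' Ω ∩ Ψ ⁻¹' Ω') :=
    S.sm.continuousOn.isOpen_inter_preimage S.opn F'.isOpen
  have ms : KV W τ V' ⊆ Φ '' Ω ∩ Ψ ⁻¹' Ω' := fun q hq => ⟨S.onto (sub hq), (H' q hq).1⟩
  have key : ∀ q ∈ KV W τ V', ∀ v, ‖th b' E' (Ψ q) v - th Φ E (Ψ q) v‖ ≤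
      ‖th Φ E (Ψ q) v‖ / 2 := fun q hq v => by
    have a := (th b' E' (Ψ q) - th Φ E (Ψ q)).le_of_opNorm_le_of_le
      (Jb.zero (f := fun x => th b' E' x - th Φ E x) (H' q hq).2.1)
      (hB _ (mem_image_of_mem _ (sub hq)) v)
    refine a.trans ?_
    nlinarith [norm_nonneg (th Φ E (Ψ q) v)]
  refine ⟨⟨_, o, ms, F'.sb.comp (S.sm.mono inter_subset_left) fun q hq => hq.2⟩,
    fun y hy => ?_, fun q hq => ?_, fun q hq => ?_, fun q hq w hw k => ?_, fun q hq k => ?_⟩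
  · obtain ⟨m, e⟩ := im _ (ms hy).1
    have s := S.sgn _ m
    rw [e] at s
    have z : Ψ (pt 0 y) = (0, (Ψ (pt 0 y)).2) := Prod.ext
      (le_antisymm (not_lt.1 fun k => lt_irrefl (0 : ℝ) (s.2.2 k)) (s.1.1 le_rfl)) rfl
    have m' := (H' _ hy).1
    rw [z, Ro.b0 S.ro (z ▸ m)] at e
    rw [z, e] at m m'
    have t : ContinuousAt (pt 0) y := by
      unfold pt
      fun_prop
    filter_upwards [t.eventually_mem ((F.isOpen.inter F'.isOpen).mem_nhds ⟨m, m'⟩)] with x hx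
    have := S.left _ hx.1
    rw [show Φ (pt 0 x) = pt 0 x from Ro.b0 S.ro hx.1] at this
    exact (congrArg b' this).trans (Ro.b0 R' hx.2)
  · refine fun k hk v w => (hC _ _ ε q (sub hq) (by nlinarith) (th_cd F' L'.met (H' q hq).1)
      (H' q hq).2.1 ?_ k hk v w).trans (mul_le_mul_of_nonneg_right e1 (by positivity))
    filter_upwards [o.mem_nhds (ms hq)] with y hy v w
    rw [← pb_th F' L'.met (dΨ y hy.1) hy.2, ← pb_th F M (dΨ y hy.1) (im y hy.1).1, pb, pb,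
      idq y hy.1, idq y hy.1, Function.comp_apply (f := Φ), (im y hy.1).2]
    rfl
  · refine (injective_iff_map_eq_zero _).2 fun w k => ?_
    have i := (ms hq).1
    have a := key q hq (fderiv ℝ Ψ q w)
    rw [fd_th F' L'.met (dΨ q i) (H' q hq).1, ← (E' (Ψ q)).map_zero] at k
    rw [(Fr.inv F' L'.met (H' q hq).1).injective k, zero_sub, norm_neg] at a
    rw [← idq q i w, fd_th F M (dΨ q i) (im q i).1, norm_eq_zero.1 (le_antisymm (by linarith)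
      (norm_nonneg (th Φ E (Ψ q) (fderiv ℝ Ψ q w)))), map_zero]
  · have i := (ms hq).1
    have a := key q hq (fderiv ℝ Ψ q w)
    have f := idq q i w
    rw [fd_th F M (dΨ q i) (im q i).1] at f
    obtain ⟨u0, u1⟩ := ft_pos L.lor S.ro (im q i).1 (by rw [f, (im q i).2]; exact hw)
    rw [fd_th F' L'.met (dΨ q i) (H' q hq).1] at k ⊢
    refine Ro.ft L' R' (H' q hq).1 ((F'.on _ (H' q hq).1 _ _).symm.trans_lt k) ?_
    have := (abs_le.1 ((norm_fst_le _).trans a)).1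
    have := tl_norm u0.le u1
    simp only [Prod.fst_sub] at *
    linarith
  · have i := (ms hq).1
    exact (H' q hq).2.2 ((S.sgn _ (im q i).1).2.1 ((im q i).2.symm ▸ k))

end Vale.Agent.P354YS
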