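import Vale.Agent.P354KX.Defs

/-!
Cones, monotone functions and a time function in a double null chart.
-/

open scoped ContDiff
open Set Filter Topology

namespace Vale.Agent.P354YS

open Vale.Agent.P354n (R4)
open Vale.Agent.P354C (Ix met detP fr th eta)
open Vale.Agent.P354R (Pull)
open Vale.Agent.P354RC (p_at surj_of_inj)
open Vale.Agent.P354GT (Fu)
open Vale.Agent.P354XE (Tw Lor)
open Vale.Agent.P354LN (Mo Ms Ca)
open Vale.Agent.P354KX

theorem cone_st {s u a b S V A B : ℝ} (h : a * a + b * b ≤ 4 * s * u) (h0 : 0 < s + u)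
    (H : A * A + B * B < 4 * S * V) (H0 : 0 < S) : -(2 * (s * V + u * S)) + a * A + b * B < 0 := by
  have n := add_nonneg (mul_self_nonneg a) (mul_self_nonneg b)
  have N := add_nonneg (mul_self_nonneg A) (mul_self_nonneg B)
  have V0 : 0 < V := (mul_pos_iff_of_pos_left H0).1 (by linarith)
  have s0 : 0 ≤ s := by nlinarith
  have u0 : 0 ≤ u := by nlinarith
  have p : 0 < s * V + u * S := by
    rcases s0.eq_or_lt with e | e
    · subst e
      simpa using mul_pos (by simpa using h0) H0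
    · positivity
  have c : (a * A + b * B) ^ 2 ≤ 4 * s * u * (A * A + B * B) := by
    nlinarith [sq_nonneg (a * B - b * A), mul_le_mul_of_nonneg_right h N]
  have q : (a * A + b * B) ^ 2 < (2 * (s * V + u * S)) ^ 2 := by
    rcases (mul_nonneg s0 u0).eq_or_lt with e | e
    · nlinarith [mul_pos p p]
    · nlinarith [sq_nonneg (s * V - u * S), mul_lt_mul_of_pos_left H e]
  linarith [lt_of_pow_lt_pow_left₀ 2 (by positivity) q]

variable {U : R4 → Ix → ℝ} {p w : R4}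

theorem th_sum (U : Ix → ℝ) (w : R4) : th U w 0 + th U w 1 = w.1 ∧ 2 * th U w 0 = vv w := by
  simp only [th, vv, Matrix.cons_val]
  constructor <;> ring

theorem fr_cau (o : 0 < U p .O) (dt : detP (U p) ≠ 0) (h : w ≠ 0) (k : met U p w w ≤ 0) :
    th (U p) w 2 * th (U p) w 2 + th (U p) w 3 * th (U p) w 3 ≤
      4 * th (U p) w 0 * th (U p) w 1 ∧ w.1 ≠ 0 := by
  have a := nonpos_of_mul_nonpos_right k (pow_pos o 2)
  rw [eta] at a
  refine ⟨by linarith, fun z => h ?_⟩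
  rw [← (th_sum (U p) w).1] at z
  have b := mul_self_nonneg (th (U p) w 0)
  have c := mul_self_nonneg (th (U p) w 2)
  have d := mul_self_nonneg (th (U p) w 3)
  have e : th (U p) w 1 = -th (U p) w 0 := by linarith
  rw [e] at a
  rw [← P354Q.fr_th dt w, Fin.sum_univ_four, e, mul_self_eq_zero.1 (le_antisymm (by linarith) b),
    mul_self_eq_zero.1 (le_antisymm (by linarith) c),
    mul_self_eq_zero.1 (le_antisymm (by linarith) d)]
  simp

theorem cn_fr (o : 0 < U p .O) (dt : detP (U p) ≠ 0) (h : Cn U p w) :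
    0 < w.1 ∧ 0 ≤ th (U p) w 0 ∧ 0 ≤ th (U p) w 1 := by
  obtain ⟨a, b⟩ := fr_cau o dt h.1 h.2.1
  have c := h.2.2.lt_of_ne' b
  have n := (add_nonneg (mul_self_nonneg _) (mul_self_nonneg _)).trans a
  have e := (th_sum (U p) w).1
  exact ⟨c, by nlinarith, by nlinarith⟩

/-- **CV.** -/
theorem cv : CV := by
  refine ⟨fun g D Xf Ψ U B p l P F hp f => ?_, fun U p w o dt h => ⟨(cn_fr o dt h).1, by
    linarith [(th_sum (U p) w).2, (cn_fr o dt h).2.1]⟩⟩
  obtain ⟨o, dt, -⟩ := F.2 p hp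
  have o2 := pow_pos o 2
  obtain ⟨ξ, hξ⟩ := surj_of_inj (P.inj _ hp) (Xf (Ψ p))
  have a1 : met U p nv ξ < 0 := by rwa [P.eq _ hp, hξ]
  have a2 : met U p ξ ξ < 0 := by
    rw [P.eq _ hp, hξ]
    exact l.tl _ (P.maps hp)
  have n : th (U p) nv = ![0, 1, 0, 0] := by simp [th, nv]
  replace a1 := neg_of_mul_neg_right a1 o2.le
  replace a2 := neg_of_mul_neg_right a2 o2.le
  simp only [eta, n, Matrix.cons_val] at a1 a2
  have ca : ∀ w, Ca g Xf (Ψ p) (fderiv ℝ Ψ p w) ↔ Cn U p w := fun w => by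
    rw [Ca, Cn, ← hξ, ← P.eq _ hp, ← P.eq _ hp, map_ne_zero_iff _ (P.inj _ hp)]
    refine and_congr_right fun h => and_congr_right fun k => ?_
    obtain ⟨a, b⟩ := fr_cau o dt h k
    have e := (th_sum (U p) w).1
    refine ⟨fun j => not_lt.1 fun q => ?_, fun j => mul_nonpos_of_nonneg_of_nonpos o2.le
      (cone_st a (e ▸ j.lt_of_ne' b) (by linarith) (by linarith)).le⟩
    have := cone_st (s := -th (U p) w 0) (u := -th (U p) w 1) (a := -th (U p) w 2)
      (b := -th (U p) w 3) (S := th (U p) ξ 0) (V := th (U p) ξ 1) (A := th (U p) ξ 2)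
      (B := th (U p) ξ 3) (by linarith) (by linarith) (by linarith) (by linarith)
    have j := nonpos_of_mul_nonpos_right j o2
    rw [eta] at j
    linarith
  refine ⟨ca, fun h F e => ?_⟩
  have c := p_at P hp
  let A := (LinearEquiv.ofInjectiveEndo (fderiv ℝ Ψ p : R4 →ₗ[ℝ] R4)
    (P.inj _ hp)).toContinuousLinearEquiv
  have d : HasFDerivAt Ψ (A : R4 →L[ℝ] R4) p := (c.differentiableAt (by simp)).hasFDerivAt
  have s := c.hasStrictFDerivAt' d (by simp)
  have key : ContDiffAt ℝ 1 F p → ContDiffAt ℝ 1 h (Ψ p) ∧ ∀ w', Ca g Xf (Ψ p) w' →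
      ∃ w, Cn U p w ∧ fderiv ℝ h (Ψ p) w' = fderiv ℝ F p w := fun k => by
    have i := (c.to_localInverse d (by simp)).of_le (show (1 : WithTop ℕ∞) ≤ ∞ by exact_mod_cast le_top)
    have j : ContDiffAt ℝ 1 h (Ψ p) := by
      refine (ContDiffAt.comp _ ((c.localInverse_apply_image d _).symm ▸ k) i
        ).congr_of_eventuallyEq ?_
      filter_upwards [s.localInverse_tendsto.eventually e, s.eventually_right_inverse] with y a b
      rw [b] at a
      exact a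
    refine ⟨j, fun w' m => ?_⟩
    obtain ⟨w, rfl⟩ := surj_of_inj (P.inj _ hp) w'
    refine ⟨w, (ca w).1 m, ?_⟩
    rw [← EventuallyEq.fderiv_eq (show h ∘ Ψ =ᶠ[𝓝 p] F from e),
      fderiv_comp p (j.differentiableAt one_ne_zero) d.differentiableAt]
    rfl
  exact ⟨fun k => ⟨(key k.1).1, fun w' m => let ⟨w, a, b⟩ := (key k.1).2 w' m; b ▸ k.2 w a⟩,
    fun k => ⟨(key k.1).1, fun w' m => let ⟨w, a, b⟩ := (key k.1).2 w' m; b ▸ k.2 w a⟩⟩

theorem time_alg {s u a b μ ψ K c0 c2 c3 : ℝ} (s0 : 0 ≤ s) (u0 : 0 ≤ u)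
    (h : a * a + b * b ≤ 4 * s * u) (m0 : 0 < μ) (ψ0 : 0 ≤ ψ) (ψ1 : ψ ≤ 1) (K1 : 1 ≤ K)
    (m : μ * K ^ 2 ≤ 1 / 64) (k0 : |c0| ≤ K) (k2 : |c2| ≤ K) (k3 : |c3| ≤ K) :
    μ * ψ ^ 2 * (s + u) / 2 ≤
      2 * s + μ * (ψ ^ 2 * (s + u) + 2 * ψ * (s * c0 + a * c2 + b * c3)) := by
  have e0 : -(K ^ 2 * s) ≤ ψ * (s * c0) := by
    have : -K ^ 2 ≤ ψ * c0 := by nlinarith [(abs_le.1 k0).1]
    nlinarith
  have q2 : c2 ^ 2 ≤ K ^ 2 := sq_le_sq' (abs_le.1 k2).1 (abs_le.1 k2).2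
  have q3 : c3 ^ 2 ≤ K ^ 2 := sq_le_sq' (abs_le.1 k3).1 (abs_le.1 k3).2
  have c : (a * c2 + b * c3) ^ 2 ≤ 4 * s * u * (K ^ 2 + K ^ 2) := by
    nlinarith [sq_nonneg (a * c3 - b * c2), mul_le_mul h (add_le_add q2 q3) (by positivity)
      (by positivity)]
  have d := (abs_le_of_sq_le_sq' (show (ψ * (a * c2 + b * c3)) ^ 2 ≤
    (ψ ^ 2 * u / 4 + 8 * K ^ 2 * s) ^ 2 by
      nlinarith [sq_nonneg (ψ ^ 2 * u / 4 - 8 * K ^ 2 * s),
        mul_le_mul_of_nonneg_left c (sq_nonneg ψ)]) (by positivity)).1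
  have := mul_le_mul_of_nonneg_left (add_le_add e0 d) m0.le
  have := mul_le_mul_of_nonneg_right m s0
  have : 0 ≤ μ * ψ ^ 2 * s := by positivity
  linarith

theorem box_cpt (a b v0 v1 r : ℝ) :
    IsCompact {p : R4 | p.1 ∈ Icc a b ∧ vv p ∈ Icc v0 v1 ∧ ‖p.2.2‖ ≤ r} := by
  have := ((isCompact_Icc (a := a) (b := b)).prod ((isCompact_Icc (a := v0) (b := v1)).prod
    (isCompact_closedBall (0 : ℝ × ℝ) r))).image
      (f := fun q => ((q.1, q.2.1 - q.1, q.2.2) : R4)) (by fun_prop)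
  refine this.of_isClosed_subset ((isClosed_Icc.preimage continuous_fst).inter
    ((isClosed_Icc.preimage (f := vv) (by unfold vv; fun_prop)).inter
      (isClosed_le (f := fun p : R4 => ‖p.2.2‖) (by fun_prop) continuous_const))) fun p h =>
    ⟨(p.1, vv p, p.2.2), ⟨h.1, h.2.1, mem_closedBall_zero_iff.2 h.2.2⟩, by simp [vv]⟩

theorem fr_co {B : Set R4} (F : Fu U B) (k : Fin 4) : ContinuousOn (fun p => fr (U p) k) B := by
  have c := fun i => (F.1 i).continuousOn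
  fin_cases k
  · exact (continuousOn_const (c := 1)).prodMk ((continuousOn_const (c := 1)).prodMk
      ((c .b1).prodMk (c .b2)))
  · exact continuousOn_const (c := nv)
  · exact (continuousOn_const (c := 0)).prodMk ((continuousOn_const (c := 0)).prodMk
      ((c .P11).prodMk (c .P12)))
  · exact (continuousOn_const (c := 0)).prodMk ((continuousOn_const (c := 0)).prodMk
      ((c .P21).prodMk (c .P22)))

/-- **TIME.** -/
theorem time : TIME := by
  intro T δ' δ3 R w U w0 hδ F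
  let ψ : R4 → ℝ := fun p => (vv p - (R - 15 / 8 * w)).smoothTransition *
    ((16 - p.2.2.1 ^ 2).smoothTransition * (16 - p.2.2.2 ^ 2).smoothTransition)
  have st : ContDiff ℝ 1 Real.smoothTransition := Real.smoothTransition.contDiff
  have cv : ContDiff ℝ 1 vv := by
    unfold vv
    fun_prop
  have c : ContDiff ℝ 1 ψ := by fun_prop
  have d := c.differentiable one_ne_zero
  have n0 := Real.smoothTransition.nonneg
  have n1 := Real.smoothTransition.le_one
  have ψ0 : ∀ p, 0 ≤ ψ p := fun p => mul_nonneg (n0 _) (mul_nonneg (n0 _) (n0 _))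
  have ψ1 : ∀ p, ψ p ≤ 1 := fun p => mul_le_one₀ (n1 _) (mul_nonneg (n0 _) (n0 _))
    (mul_le_one₀ (n1 _) (n0 _) (n1 _))
  have z : ∀ p, vv p ≤ R - 15 / 8 * w ∨ 4 ≤ ‖p.2.2‖ → ψ p = 0 := fun p h => by
    have k : ∀ t : ℝ, 4 ≤ |t| → (16 - t ^ 2).smoothTransition = 0 := fun t ht =>
      Real.smoothTransition.zero_of_nonpos (by nlinarith [sq_abs t])
    rcases h with h | h
    · exact mul_eq_zero_of_left (Real.smoothTransition.zero_of_nonpos (sub_nonpos.2 h)) _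
    · exact mul_eq_zero_of_right _ (mul_eq_zero.2 ((le_max_iff.1 h).imp (k _) (k _)))
  have dn : ∀ p, fderiv ℝ ψ p nv = 0 := fun p =>
    HasDerivAt.unique ((d p).hasFDerivAt.hasLineDerivAt nv) ((hasDerivAt_const (0 : ℝ)
      (ψ p)).congr_of_eventuallyEq (.of_forall fun t => by
        have a : vv (p + t • nv) = vv p := by
          simp only [nv, vv, Prod.fst_add, Prod.snd_add, Prod.smul_mk, smul_eq_mul]
          ring
        simp only [ψ, a]
        simp [nv]))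
  have sub : {p : R4 | p.1 ∈ Icc (-δ3) (T + δ3) ∧ vv p ∈ Icc (R - 15 / 8 * w) (R + 39 / 16 * w) ∧
      ‖p.2.2‖ ≤ 4} ⊆ Bk T δ' R w := fun p h =>
    ⟨⟨by linarith [h.1.1], by linarith [h.1.2]⟩, ⟨show _ < vv p by linarith [h.2.1.1],
      show vv p < _ by linarith [h.2.1.2]⟩, by linarith [h.2.2]⟩
  obtain ⟨C, hC⟩ := (box_cpt _ _ _ _ _).exists_bound_of_continuousOn
    (f := fun p (k : Fin 4) => p.1 * fderiv ℝ ψ p (fr (U p) k)) (continuousOn_pi.2 fun k =>
      continuousOn_fst.mul (((c.continuous_fderiv one_ne_zero).continuousOn.clm_apply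
        (fr_co F k)).mono sub))
  obtain ⟨K, K1, K2, K3⟩ : ∃ K, 1 ≤ K ∧ C ≤ K ∧ |T| + |δ3| ≤ K :=
    ⟨max 1 (max C (|T| + |δ3|)), by simp, by simp, by simp⟩
  obtain ⟨μ, m0, m⟩ : ∃ μ, 0 < μ ∧ μ * K ^ 2 = 1 / 64 :=
    ⟨1 / (64 * K ^ 2), by positivity, by field_simp⟩
  have cφ : ContDiff ℝ 1 fun p : R4 => μ * (ψ p ^ 2 * p.1) := by fun_prop
  refine ⟨_, cφ, fun p h => by simp [z p h], fun p hp => ⟨?_, fun hv => ?_⟩⟩
  · have a : |p.1| ≤ K := abs_le.2 ⟨by linarith [hp.1.1, le_abs_self δ3, abs_nonneg T],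
      by linarith [hp.1.2, le_abs_self δ3, le_abs_self T]⟩
    rw [abs_mul, abs_mul, abs_of_pos m0, abs_of_nonneg (sq_nonneg _)]
    have := mul_le_mul (pow_le_one₀ (n := 2) (ψ0 p) (ψ1 p)) a (abs_nonneg _) zero_le_one
    nlinarith [mul_le_mul_of_nonneg_left this m0.le, mul_le_mul_of_nonneg_left
      (show K ≤ K ^ 2 by nlinarith) m0.le]
  obtain ⟨o, dt, -⟩ := F.2 p ⟨⟨by linarith [hp.1.1], by linarith [hp.1.2]⟩, hp.2⟩
  have key : ∀ x, Cn U p x → μ * ψ p ^ 2 * x.1 / 2 ≤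
      fderiv ℝ (fun q => vv q + μ * (ψ q ^ 2 * q.1)) p x := fun x h => by
    have e : fderiv ℝ (fun q => vv q + μ * (ψ q ^ 2 * q.1)) p x =
        vv x + μ * (ψ p ^ 2 * x.1 + 2 * ψ p * (p.1 * fderiv ℝ ψ p x)) := by
      have := (hasFDerivAt_fst.fun_add (hasFDerivAt_snd (p := p)).fst).fun_add
        ((((d p).hasFDerivAt.pow 2).fun_mul hasFDerivAt_fst).const_mul μ)
      refine (congrArg (· x) this.fderiv).trans ?_
      simp [vv]
      ring
    obtain ⟨-, s0, u0⟩ := cn_fr o dt h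
    rw [e, ← (th_sum (U p) x).1, ← (th_sum (U p) x).2]
    by_cases q : vv p ≤ R - 15 / 8 * w ∨ 4 ≤ ‖p.2.2‖
    · simpa [z p q] using s0
    push Not at q
    have k := fun k => (norm_le_pi_norm _ k).trans
      ((hC p ⟨⟨hp.1.1.le, hp.1.2.le⟩, ⟨q.1.le, hv⟩, q.2.le⟩).trans K2)
    refine (time_alg s0 u0 (fr_cau o dt h.1 h.2.1).1 m0 (ψ0 p) (ψ1 p) K1 m.le (k 0) (k 2)
      (k 3)).trans_eq ?_
    have r := congrArg (fderiv ℝ ψ p) (P354Q.fr_th dt x)
    rw [Fin.sum_univ_four, show fr (U p) 1 = nv from rfl] at r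
    simp only [map_add, map_smul, dn, smul_eq_mul] at r
    rw [← r]
    ring
  have s := (cv.add cφ).contDiffAt (x := p)
  refine ⟨⟨s, fun x h => le_trans (by have := h.2.2; positivity) (key x h)⟩, fun h1 h2 =>
    ⟨s, fun x h => lt_of_lt_of_le ?_ (key x h)⟩⟩
  have k : ∀ t : ℝ, |t| ≤ 13 / 4 → 0 < (16 - t ^ 2).smoothTransition := fun t ht =>
    Real.smoothTransition.pos_of_pos (by nlinarith [sq_abs t, abs_nonneg t])
  have := (cn_fr o dt h).1
  have : 0 < ψ p := mul_pos (Real.smoothTransition.pos_of_pos (by linarith))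
    (mul_pos (k _ (max_le_iff.1 h2).1) (k _ (max_le_iff.1 h2).2))
  positivity

end Vale.Agent.P354YS
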