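import Vale.Agent.P354YS.Wt

/-!
The comparisons of the weights which are needed for the commutators.
-/

open Set

noncomputable section

namespace Vale.Agent.P354YS

open Vale.Agent.P354XI Vale.Agent.P354XZ

variable {l : ℝ}

theorem t1 (l0 : 0 ≤ l) (l1 : l ≤ 1 / 100) (i : Fin 4) : (((tw 1 l i).mu (tw 1 l i)).mu
    ⟨0, -2, 0, 0⟩).Le 0 ((tb 1 l i.castSucc).mu (tb 1 l i.castSucc)) := by
  fin_cases i <;> simp [Mo.Le, Mo.mu, tw, tb] <;> (repeat' apply And.intro) <;> linarith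

theorem t2 (l0 : 0 ≤ l) (l1 : l ≤ 1 / 100) (i : Fin 4) : (((tw 1 l i).mu (tw 1 l i)).mu
    ⟨0, -2, 0, 0⟩).Le 0 ((tb 1 l i.castSucc).mu (tb 1 l i.succ)) := by
  fin_cases i <;> simp [Mo.Le, Mo.mu, tw, tb] <;> (repeat' apply And.intro) <;> linarith

theorem t3 (l0 : 0 ≤ l) (l1 : l ≤ 1 / 100) (i : Fin 4) : (((tw 1 l i).mu (tw 1 l i)).mu
    ⟨0, -2, 0, 0⟩).Le 0 ((tb 1 l i.succ).mu (tb 1 l i.castSucc)) := by
  fin_cases i <;> simp [Mo.Le, Mo.mu, tw, tb] <;> (repeat' apply And.intro) <;> linarith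

theorem t4 (l0 : 0 ≤ l) (l1 : l ≤ 1 / 100) (i : Fin 4) : (((tw 1 l i).mu (tw 1 l i)).mu
    ⟨0, 0, 0, -12 / 5⟩).Le 0 ((td 1 l i).mu (td 1 l i)) := by
  fin_cases i <;> simp [Mo.Le, Mo.mu, tw, td] <;> (repeat' apply And.intro) <;> linarith

/-- The weights r Zb and r Zg at the loss 1/100, times ut^(-3/10). -/
def zb : Mo := ⟨0, -1 / 100, 0, 249 / 100⟩
def zg : Mo := ⟨0, 3 / 20, 46 / 25, 13 / 20⟩

/-- The better one of the two weights of the table. -/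
def ts : Fin 5 → Mo := ![td 0 0 0, td 0 0 1, tb 0 0 2, tb 0 0 3, tb 0 0 4]

theorem t5 (i : Fin 4) : (((tw 1 (1 / 100) i).mu (tw 1 (1 / 100) i)).mu
    ⟨0, 0, 0, 0⟩).Le 1 ((td 1 (1 / 100) i).mu (zb.mu (ts i.castSucc))) := by
  fin_cases i <;> simp [Mo.Le, Mo.mu, tw, td, tb, ts, zb] <;> norm_num

theorem t6 (i : Fin 4) : (((tw 1 (1 / 100) i).mu (tw 1 (1 / 100) i)).mu
    ⟨0, 0, 0, 0⟩).Le 1 ((tb 1 (1 / 100) i.castSucc).mu (zg.mu (ts i.succ))) := by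
  fin_cases i <;> simp [Mo.Le, Mo.mu, tw, td, tb, ts, zg] <;> norm_num

theorem t7 (i : Fin 4) : (((tw 1 (1 / 100) i).mu (tw 1 (1 / 100) i)).mu
    ⟨0, 0, 0, 0⟩).Le 1 ((tb 1 (1 / 100) i.succ).mu (zg.mu (ts i.castSucc))) := by
  fin_cases i <;> simp [Mo.Le, Mo.mu, tw, td, tb, ts, zg] <;> norm_num

variable {A : Type} [CommRing A] [Algebra ℂ A] {C : Ch A} (h : C.Is) {K : Cut C} (hK : K.Is)
  (x : C.Pt)
include hK

theorem ps_p : Ps K.p := ⟨hK.sm.2.2, hK.pos⟩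

include h

theorem p_one : 1 ≤ C.at' K.p x := (hK.ple _ _ (h.dom x)).1
theorem p_pm : C.at' K.p x ≤ K.pm x.1 := (hK.ple _ _ (h.dom x)).2.1
theorem pm_one : 1 ≤ K.pm x.1 := (p_one h hK x).trans (p_pm h hK x)

theorem rr_de : (C.rr x)⁻¹ ^ 2 ≤ K.de x.1 ^ 2 := by
  have r1 := rr_one h x
  have R1 := (h.one_le x.1).1
  have R2 : C.R0 x.1 ≤ C.rr x := (h.rng _ _ (h.dom x)).1
  refine pow_le_pow_left₀ (by positivity) ?_ 2
  have : (C.rr x)⁻¹ ≤ C.R0 x.1 ^ (-1 / 10 : ℝ) := by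
    rw [← Real.rpow_neg_one]
    exact (Real.rpow_le_rpow_of_nonpos (by linarith) R2 (by norm_num)).trans
      (Real.rpow_le_rpow_of_exponent_le R1 (by norm_num))
  have := mul_nonneg (hK.ep x.1) (zero_le_one.trans (pm_one h hK x))
  unfold Cut.de
  linarith

omit hK in
theorem ev_m2 (P : ℝ) : Mo.ev ⟨0, -2, 0, 0⟩ P x = (C.rr x)⁻¹ ^ 2 := by
  rw [ev_r, Real.rpow_neg (rr_pos h x).le, inv_pow, Real.rpow_two]

omit hK h in
theorem ev_0 (P : ℝ) : Mo.ev ⟨0, 0, 0, 0⟩ P x = 1 := by rw [ev_r, Real.rpow_zero]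

omit hK h in
theorem ev_z0 {s : Mo} (e : s.z = 0) (P Q : ℝ) : s.ev P x = s.ev Q x := by
  rw [Mo.ev, Mo.ev, e, pow_zero, pow_zero]

omit hK h in
theorem ev_at (a b e P : ℝ) : Mo.ev ⟨0, a, b, e⟩ P x = C.at' (C.mon a b e) x := by
  rw [Mo.ev, pow_zero, one_mul]

variable (l0 : 0 ≤ l) (l1 : l ≤ 1 / 100) (i : Fin 4)

section
include l0 l1

theorem a1 : C.at' (C.OA K.p l i) x * (C.rr x)⁻¹ ^ 2 ≤
    4 ^ 10 * C.at' (C.Dw K.p l i.castSucc) x := by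
  have z := (pow_one (C.at' K.p x)).symm
  have := dual_le h (t1 l0 l1 i) (p_one h hK x) le_rfl x (tb_le h (ps_p hK) l z _)
  rw [ev_m2 h, ← at_OA h l z, pow_zero, mul_one] at this
  exact this.trans (mul_le_mul_of_nonneg_left (tb_le h (ps_p hK) l z _) (by norm_num))

theorem a2 : C.at' (C.OA K.p l i) x * (C.rr x)⁻¹ ^ 2 ≤
    4 ^ 10 * C.at' (C.Dw K.p l i.succ) x := by
  have z := (pow_one (C.at' K.p x)).symm
  have := dual_le h (t2 l0 l1 i) (p_one h hK x) le_rfl x (tb_le h (ps_p hK) l z _)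
  rw [ev_m2 h, ← at_OA h l z, pow_zero, mul_one] at this
  exact this.trans (mul_le_mul_of_nonneg_left (tb_le h (ps_p hK) l z _) (by norm_num))

theorem b1 : C.at' (C.OB K.p l i) x * (C.rr x)⁻¹ ^ 2 ≤
    4 ^ 10 * C.at' (C.Dw K.p l i.castSucc) x := by
  have z := (pow_one (C.at' K.p x)).symm
  have := dual_le h (t3 l0 l1 i) (p_one h hK x) le_rfl x (tb_le h (ps_p hK) l z _)
  rw [ev_m2 h, ← at_OB h l z, pow_zero, mul_one] at this
  exact this.trans (mul_le_mul_of_nonneg_left (tb_le h (ps_p hK) l z _) (by norm_num))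

theorem a3 : C.at' (C.OA K.p l i) x * C.at' C.Sb x ^ 2 ≤
    4 ^ 10 * C.at' (C.Dw K.p l i.castSucc) x := by
  have z := (pow_one (C.at' K.p x)).symm
  have := dual_le h (t4 l0 l1 i) (p_one h hK x) le_rfl x (td_le h (ps_p hK) l z _)
  have e : C.at' C.Sb x ^ 2 ≤ Mo.ev ⟨0, 0, 0, -12 / 5⟩ (C.at' K.p x) x := by
    rw [sq, Ch.Sb, at_mon_mul h, ev_at]
    simp only [Ch.at', Ch.mon, add_zero, Real.rpow_zero, one_mul]
    exact Real.rpow_le_rpow_of_exponent_le (one_le_ut h _ _) (by norm_num)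
  rw [← at_OA h l z, pow_zero, mul_one] at this
  exact (mul_le_mul_of_nonneg_left e ((ps_OA h (ps_p hK) l i).at h x).le).trans
    (this.trans (mul_le_mul_of_nonneg_left (td_le h (ps_p hK) l z _) (by norm_num)))

end

omit hK in
theorem ts_le (j : Fin 5) (P : ℝ) : (ts j).ev P x ≤ C.at' (C.Dw 1 0 j) x := by
  have z : C.at' (1 : Fam C.J) x = P ^ 0 := (pow_zero P).symm
  fin_cases j
  exacts [td_le h ps_one 0 z 0, td_le h ps_one 0 z 1, tb_le h ps_one 0 z 2, tb_le h ps_one 0 z 3,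
    tb_le h ps_one 0 z 4]

omit hK in
theorem ev_zb (P : ℝ) : zb.ev P x =
    C.at' (C.Zb (1 / 100)) x * (C.rr x * C.at' (C.mon 0 0 (-3 / 10)) x) := by
  have := ev_r 1 P x
  rw [Real.rpow_one, ev_at] at this
  rw [← this, Ch.Zb, at_mon_mul h, at_mon_mul h, zb, ev_at]; norm_num

omit hK in
theorem ev_zg (P : ℝ) : zg.ev P x =
    C.at' (C.Zg (1 / 100)) x * (C.rr x * C.at' (C.mon 0 0 (-3 / 10)) x) := by
  have := ev_r 1 P x
  rw [Real.rpow_one, ev_at] at this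
  rw [← this, Ch.Zg, at_mon_mul h, at_mon_mul h, zg, ev_at]; norm_num

theorem fin_le {O : ℝ} {z : Mo} {j : Fin 5} (e : O * Mo.ev ⟨0, 0, 0, 0⟩ (C.at' K.p x) x ≤
    4 ^ 10 * K.pm x.1 ^ 1 * (z.mu (ts j)).ev (C.at' K.p x) x) :
    O ≤ 4 ^ 10 * K.pm x.1 ^ 2 * (z.ev (C.at' K.p x) x * C.at' (C.Dw 1 0 j) x) := by
  rw [ev_0, mul_one, ev_mu h] at e
  have p1 := pm_one h hK x
  have z0 := (ev_pos h z (p_one h hK x) x).le
  exact e.trans (mul_le_mul (mul_le_mul_of_nonneg_left (pow_le_pow_right₀ p1 one_le_two)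
    (by norm_num)) (mul_le_mul_of_nonneg_left (ts_le h x j _) z0)
    (mul_nonneg z0 (ev_pos h _ (p_one h hK x) x).le) (by positivity))

theorem a4 : C.at' (C.OA K.p (1 / 100) i) x ≤ 4 ^ 10 * K.pm x.1 ^ 2 *
    (C.at' (C.Zb (1 / 100)) x * (C.rr x * C.at' (C.mon 0 0 (-3 / 10)) x) *
      C.at' (C.Dw 1 0 i.castSucc) x) := by
  have z := (pow_one (C.at' K.p x)).symm
  rw [← ev_zb h x (C.at' K.p x), at_OA h _ z]
  exact fin_le h hK x (dual_le h (t5 i) (p_one h hK x) (p_pm h hK x) x (td_le h (ps_p hK) _ z _))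

theorem a5 : C.at' (C.OA K.p (1 / 100) i) x ≤ 4 ^ 10 * K.pm x.1 ^ 2 *
    (C.at' (C.Zg (1 / 100)) x * (C.rr x * C.at' (C.mon 0 0 (-3 / 10)) x) *
      C.at' (C.Dw 1 0 i.succ) x) := by
  have z := (pow_one (C.at' K.p x)).symm
  rw [← ev_zg h x (C.at' K.p x), at_OA h _ z]
  exact fin_le h hK x (dual_le h (t6 i) (p_one h hK x) (p_pm h hK x) x (tb_le h (ps_p hK) _ z _))

theorem b2 : C.at' (C.OB K.p (1 / 100) i) x ≤ 4 ^ 10 * K.pm x.1 ^ 2 *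
    (C.at' (C.Zg (1 / 100)) x * (C.rr x * C.at' (C.mon 0 0 (-3 / 10)) x) *
      C.at' (C.Dw 1 0 i.castSucc) x) := by
  have z := (pow_one (C.at' K.p x)).symm
  rw [← ev_zg h x (C.at' K.p x), at_OB h _ z]
  exact fin_le h hK x (dual_le h (t7 i) (p_one h hK x) (p_pm h hK x) x (tb_le h (ps_p hK) _ z _))

omit hK in
theorem Sg_le : C.at' C.Sg x ≤ (C.rr x)⁻¹ := by
  have r0 := rr_pos h x
  have : C.ut x.1 (C.uu x) ^ (-1 / 4 : ℝ) ≤ 1 :=
    Real.rpow_le_one_of_one_le_of_nonpos (one_le_ut h _ _) (by norm_num)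
  simp only [Ch.Sg, Ch.at', Ch.mon, Real.rpow_zero, mul_one, Real.rpow_neg_one]
  exact mul_le_of_le_one_right (by positivity) this

omit hK in
/-- The table of the curvature at the level 5/2. -/
theorem tabV_le {n : ℕ} {e : C.J → ℝ} {V : Fin 5 → A} (t : C.TabV n 0 e V univ) (c : Fin 5) :
    C.rr x * C.at' (C.mon 0 0 (-3 / 10)) x * C.at' (C.Dw 1 0 c) x * C.jet n (V c) x ^ 2 ≤
      e x.1 ^ 2 := by
  have k := t x (mem_univ _) c
  have u : C.at' (C.mon 0 0 (-3 / 10)) x ≤ 1 := by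
    simp only [Ch.at', Ch.mon, Real.rpow_zero, one_mul]
    exact Real.rpow_le_one_of_one_le_of_nonpos (one_le_ut h _ _) (by norm_num)
  first
  | exact (mul_le_mul_of_nonneg_right (mul_le_mul_of_nonneg_right (mul_le_of_le_one_right
      (rr_pos h x).le u) ((ps_Dw h ps_one 0 c).at h x).le) (sq_nonneg _)).trans k
  | exact le_of_eq_of_le (by rw [mul_assoc (C.rr x)]; rfl) k

end Vale.Agent.P354YS
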