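import Vale.Agent.P354YS.Tm
import Vale.Agent.P354YF.Df

/-!
The Hardy inequality along R for the integrals with a causal weight, and the weights of the gauge
quantities.
-/

open Set

noncomputable section

namespace Vale.Agent.P354YS

open Vale.Agent.P354XG (Der D_mul D_add D_sub D_neg D_alg D_zero D_one)
open Vale.Agent.P354XI Vale.Agent.P354XZ

variable {A : Type} [CommRing A] [Algebra ℂ A] {C : Ch A} {F : NF A} {K : Cut C} {j : C.J}
  {ps : A}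

theorem E_add (f g : A) : K.E j ps (f + g) = K.E j ps f + K.E j ps g := by
  simp only [Cut.E, mul_add, Ibp.J_add]
theorem L_add (f g : A) : K.L j ps (f + g) = K.L j ps f + K.L j ps g := by
  simp only [Cut.L, mul_add, Ibp.J_add]
theorem E_sum {ι : Type} (s : Finset ι) (f : ι → A) :
    K.E j ps (∑ i ∈ s, f i) = ∑ i ∈ s, K.E j ps (f i) := by
  simp only [Cut.E, Finset.mul_sum, Ibp.J_sum]
theorem L_sum {ι : Type} (s : Finset ι) (f : ι → A) :
    K.L j ps (∑ i ∈ s, f i) = ∑ i ∈ s, K.L j ps (f i) := by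
  simp only [Cut.L, Finset.mul_sum, Ibp.J_sum]
theorem E_rl (t : ℝ) (f : A) : K.E j ps (Ibp.rl A t * f) = t * K.E j ps f := by
  rw [Cut.E, mul_left_comm, Ibp.J_rl, Cut.E]
theorem E_zero : K.E j ps 0 = 0 := by rw [Cut.E, mul_zero, Ibp.J_zero]
theorem L_zero : K.L j ps 0 = 0 := by rw [Cut.L, mul_zero, Ibp.J_zero]

/-- The logarithmic derivative of the weight leaves a margin. -/
def Hd (κ : ℕ) (Z : Fam C.J) : Prop := ∀ x : C.Pt,
  C.rr x * deriv (Z x.1 (C.uu x)) (C.rr x) + C.at' Z x ≤ (2 * κ - 1 / 100) * C.at' Z x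

variable (h : C.Is)
include h

theorem val_rl (x : C.Pt) (t : ℝ) (f : A) : C.val x (Ibp.rl A t * f) = t * C.val x f := by
  rw [Ch.val, (h.ibp x.1).val_mul ((h.ibp x.1).re_rl t), (h.ibp x.1).val_rl]; rfl

theorem r_mon (a b e : ℝ) (x : C.Pt) : C.rr x * deriv (C.mon a b e x.1 (C.uu x)) (C.rr x) =
    (a + 2 * b * (C.rr x / C.vv x.1 (C.uu x) (C.rr x))) * C.at' (C.mon a b e) x := by
  have := (rr_pos h x).ne'
  rw [(P354YF.mon_deriv a b e x.1 _ (rr_pos h x)).deriv, Ch.at']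
  field_simp

theorem r_v (x : C.Pt) : 0 ≤ C.rr x / C.vv x.1 (C.uu x) (C.rr x) ∧
    C.rr x / C.vv x.1 (C.uu x) (C.rr x) ≤ 1 / 2 := by
  have v := vv_pos x.1 (C.uu x) (rr_pos h x)
  refine ⟨div_nonneg (rr_pos h x).le v.le, (div_le_iff₀ v).2 ?_⟩
  linarith [P354YF.two_le_vv x.1 (C.uu x) (C.rr x)]

theorem hd_mon {a b : ℝ} (e : ℝ) {κ : ℕ} (b0 : 0 ≤ b) (s : a + b + 1 ≤ 2 * κ - 1 / 100) :
    Hd κ (C.mon a b e) := fun x => by
  have := mul_le_mul_of_nonneg_left (r_v h x).2 b0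
  rw [r_mon h, ← add_one_mul]
  exact mul_le_mul_of_nonneg_right (by linarith) ((ps_mon h ..).at h x).le

variable (hK : K.Is)
include hK

theorem hd_Zh {l : ℝ} (l0 : 0 ≤ l) (l1 : l ≤ 1 / 100) (i : Fin 2) : Hd 2 (C.Zh K.p l i) := by
  fin_cases i
  swap
  · exact hd_mon h _ (by linarith) (by push_cast; linarith)
  intro x
  have d := (P354YF.smF_diff hK.sm.2.2 x.1 (C.uu x) (rr_pos h x)).hasDerivAt.mul
    (P354YF.smF_diff (ps_mon h (-17 / 20) (14 / 5 - l) 0).sm x.1 (C.uu x) (rr_pos h x)).hasDerivAt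
  have e := r_mon h (-17 / 20) (14 / 5 - l) 0 x
  have m := ((ps_mon h (-17 / 20) (14 / 5 - l) 0).at h x).le
  have p := zero_le_one.trans (p_one h hK x)
  have q := mul_le_mul_of_nonneg_right (hK.dp _ _ (h.dom x)).2 m
  have t := mul_nonneg (mul_nonneg l0 (r_v h x).1) (mul_nonneg p m)
  change C.rr x * deriv (K.p x.1 (C.uu x) * C.mon _ _ _ x.1 (C.uu x)) _ +
    C.at' K.p x * C.at' (C.mon _ _ _) x ≤ _ * (C.at' K.p x * C.at' (C.mon _ _ _) x)
  rw [d.deriv, mul_add, mul_left_comm _ (K.p _ _ _), e]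
  simp only [Ch.at', mul_div_assoc] at q t p m ⊢
  push_cast
  nlinarith [mul_nonneg p m]

theorem chi_mem (x : C.Pt) : C.at' K.chi x ∈ Icc (0 : ℝ) 1 := (hK.rng _ _ (h.dom x)).1
theorem lay_mem (x : C.Pt) : C.at' K.lay x ∈ Icc (0 : ℝ) 1 := (hK.rng _ _ (h.dom x)).2

theorem d_chi : ∃ L, 0 ≤ L ∧ ∀ x : C.Pt,
    C.rr x * deriv (K.chi x.1 (C.uu x)) (C.rr x) ≤ L * C.at' K.lay x := by
  obtain ⟨L, hL⟩ := hK.dchi
  refine ⟨|L|, abs_nonneg L, fun x => le_trans (mul_le_mul_of_nonneg_left ((le_abs_self _).trans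
    (le_add_of_nonneg_left (abs_nonneg _))) (rr_pos h x).le) ((hL _ _ (h.dom x)).2.trans
    (mul_le_mul_of_nonneg_right (le_abs_self L) (lay_mem h hK x).1))⟩

variable (cau : K.Cau F j ps)
include cau

omit hK in
theorem wt_ps {φ : Fam C.J} (s : SmF φ) (k : ps * C.fn φ ∈ (C.B j).K)
    (p : ∀ x : C.Pt, 0 ≤ C.at' φ x) : (C.B j).Wt (ps * C.fn φ) :=
  ⟨k, by rw [Ibp.Re, h.c_eq, map_mul, cau.re, h.fn_c φ s], fun y => by
    have k : ∀ x : C.Pt, x.1 = j → 0 ≤ C.val x (ps * C.fn φ) := fun x e => by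
      rw [P354YF.vl_mul h cau.re, P354YF.vl_fn h s]
      exact mul_nonneg (cau.pos x e).1 (p x)
    exact k ⟨j, y⟩ rfl⟩

theorem E_le {f g : A} (e : ∀ x : C.Pt, x.1 = j → C.val x f ≤ C.val x g) :
    K.E j ps f ≤ K.E j ps g := by
  have w := wt_ps h cau hK.sm.1 cau.cpt.1 fun x => (chi_mem h hK x).1
  refine (h.ibp j).J_le (Ideal.mul_mem_right _ _ w.K) (Ideal.mul_mem_right _ _ w.K) fun y => ?_
  rw [(h.ibp j).val_mul w.re, (h.ibp j).val_mul w.re]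
  exact mul_le_mul_of_nonneg_left (e ⟨j, y⟩ rfl) (w.pos y)

theorem L_le {f g : A} (e : ∀ x : C.Pt, x.1 = j → C.val x f ≤ C.val x g) :
    K.L j ps f ≤ K.L j ps g := by
  have w := wt_ps h cau hK.sm.2.1 cau.cpt.2.1 fun x => (lay_mem h hK x).1
  refine (h.ibp j).J_le (Ideal.mul_mem_right _ _ w.K) (Ideal.mul_mem_right _ _ w.K) fun y => ?_
  rw [(h.ibp j).val_mul w.re, (h.ibp j).val_mul w.re]
  exact mul_le_mul_of_nonneg_left (e ⟨j, y⟩ rfl) (w.pos y)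

theorem E_nn {f : A} (e : ∀ x : C.Pt, 0 ≤ C.val x f) : 0 ≤ K.E j ps f :=
  E_zero.ge.trans (E_le h hK cau fun x _ => (Ibp.val_zero _).le.trans (e x))

theorem L_nn {f : A} (e : ∀ x : C.Pt, 0 ≤ C.val x f) : 0 ≤ K.L j ps f :=
  L_zero.ge.trans (L_le h hK cau fun x _ => (Ibp.val_zero _).le.trans (e x))

variable {L : ℝ} (L0 : 0 ≤ L)
  (hL : ∀ x : C.Pt, C.rr x * deriv (K.chi x.1 (C.uu x)) (C.rr x) ≤ L * C.at' K.lay x)
  {Z : Fam C.J} (hZ : Ps Z) {κ : ℕ} (hd : Hd κ Z)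
include L0 hL hZ hd

theorem hardy0 {f G : A} (e : C.X 1 f = -((κ : A) * f) + G) :
    K.E j ps (C.fn Z * (f * C.c f)) ≤ 200 * L * K.L j ps (C.fn Z * (f * C.c f)) +
      200 ^ 2 * K.E j ps (C.fn Z * (G * C.c G)) := by
  have b := h.ibp j
  have zr : (C.B j).Re (C.fn Z) := by rw [Ibp.Re, h.c_eq, h.fn_c _ hZ.sm]
  have zp : ∀ y, 0 ≤ (C.B j).val y (C.fn Z) := fun y =>
    (hZ.at h ⟨j, y⟩).le.trans_eq (P354YF.vl_fn h hZ.sm).symm
  have w := b.wt_mul (wt_ps h cau hK.sm.1 cau.cpt.1 fun x => (chi_mem h hK x).1) zr zp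
  have y := b.wt_rl (b.wt_mul (wt_ps h cau hK.sm.2.1 cau.cpt.2.1 fun x => (lay_mem h hK x).1)
    zr zp) L0
  have d := b.wt_rl w (show (0 : ℝ) ≤ 1 / 200 by norm_num)
  have k := P354YF.hardy (X := C.X) (k := κ) b (L := C.X 1) (d := 1)
    (((h.skR j).dv.smul C.r).congr (by rw [R_r h, mul_zero, zero_add]))
    (fun f => by rw [h.c_eq, c_X h _ _ j]) (L_X h) w d.K d
    (b.wt_rl w (show (0 : ℝ) ≤ 200 by norm_num)) y.K (fun y => ?_) (fun y => ?_) 0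
    (f := f) (G := G) (by rw [e, Ibp.rl, Complex.ofReal_natCast, map_natCast])
  · simp only [P354YF.nj_zero, Ibp.nsq_rl_w] at k
    simp only [Ibp.nsq, Ibp.bil, h.c_eq, mul_assoc] at k
    simp only [Cut.E, Cut.L, mul_assoc]
    linarith
  · set x : C.Pt := ⟨j, y⟩
    have c1 := h.fn_c _ hK.sm.1
    have c2 := h.fn_c _ hZ.sm
    obtain ⟨p0, p1, -⟩ := cau.pos x rfl
    have z0 := (hZ.at h x).le
    have c0 := (chi_mem h hK x).1
    have k1 := mul_le_mul_of_nonneg_left (hd x) (mul_nonneg p0 c0)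
    have k2 := mul_le_mul_of_nonneg_left (hL x) (mul_nonneg p0 z0)
    have k3 := mul_nonneg (mul_nonneg (rr_pos h x).le (mul_nonneg c0 z0)) (neg_nonneg.2 p1)
    change C.val x _ + C.val x _ + C.val x _ ≤ 2 * κ * C.val x _ + C.val x _
    simp only [X_one, D_mul, one_mul, val_add, val_rl h, mul_assoc, P354YF.vl_mul h h.c_r,
      P354YF.vl_mul h cau.re, P354YF.vl_mul h c1, P354YF.vl_mul h c2, P354YF.vl_fn h hK.sm.1,
      P354YF.vl_fn h hZ.sm, P354YF.vl_R_fn h hK.sm.1, P354YF.vl_R_fn h hZ.sm,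
      P354YF.vl_mul h (h.fn_c _ hK.sm.2.1), P354YF.vl_fn h hK.sm.2.1]
    rw [Ch.rr] at k1 k2 k3 ⊢
    linarith
  · simp only [b.val_mul (b.re_rl _), b.val_rl]
    exact le_of_eq (by ring)

theorem hardy_sl (n : ℕ) {f G : A} (e : C.X 1 f = -((κ : A) * f) + G) :
    K.E j ps (C.fn Z * C.sl n f) ≤ 200 * L * K.L j ps (C.fn Z * C.sl n f) +
      200 ^ 2 * K.E j ps (C.fn Z * C.sl n G) := by
  induction n generalizing f G with
  | zero => simp [Ch.sl, E_zero, L_zero]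
  | succ n ih =>
    have := Finset.sum_le_sum fun a (_ : a ∈ Finset.univ) => ih (f := C.X a f) (G := C.X a G) (by
      rw [L_X h, e, D_add, D_neg, D_mul, (C.X a).map_natCast, mul_zero, add_zero])
    rw [Finset.sum_add_distrib, ← Finset.mul_sum, ← Finset.mul_sum] at this
    simp only [P354YF.sl_succ, mul_add, Finset.mul_sum (a := C.fn Z), E_add, L_add, E_sum, L_sum]
    linarith [hardy0 h hK cau L0 hL hZ hd e]

end Vale.Agent.P354YS
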