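import Vale.Agent.P354YS.Sp

/-!
The four bilinear operations which occur in the sources, and the terms which are not small.
-/

noncomputable section

namespace Vale.Agent.P354YS

open Vale.Agent.P354XG (Der D_mul D_add D_sub D_neg D_alg D_zero D_one)
open Vale.Agent.P354XI Vale.Agent.P354XZ Finset

variable {A : Type} [CommRing A] [Algebra ℂ A] {C : Ch A}

/-- The basis T, r R, P, Q, V, which commutes with the letters. -/
def Ef (C : Ch A) : Fin 5 → Der A := ![C.T, C.X 1, C.an 0, C.an 1, C.an 2]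

/-- The products of the jets which occur at the order N are at most y. -/
def Bs (c g : A) (x : C.Pt) (N : ℕ) (y : ℝ) : Prop :=
  ∀ i j, i ≤ N → j ≤ N → i + j ≤ N + 1 → C.jet i c x * C.jet j g x ≤ y

theorem Bs.nonneg {c g : A} {x : C.Pt} {N : ℕ} {y : ℝ} (h : Bs c g x N y) : 0 ≤ y :=
  (mul_nonneg (jet_nonneg _ _) (jet_nonneg _ _)).trans (h 0 0 (by omega) (by omega) (by omega))

theorem bs_top (c g : A) (x : C.Pt) (N : ℕ) : Bs c g x N (C.jet N c x * C.jet N g x) :=
  fun _ _ a b _ => mul_le_mul (jet_mono a c) (jet_mono b g) (jet_nonneg _ _) (jet_nonneg _ _)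

theorem bs_low (c g : A) (x : C.Pt) {N m : ℕ} (e : N ≤ m) :
    Bs c g x N (C.jet m c x * C.jet N g x) := fun _ _ a b _ =>
  mul_le_mul (jet_mono (a.trans e) c) (jet_mono b g) (jet_nonneg _ _) (jet_nonneg _ _)

theorem bs_split (c g : A) (x : C.Pt) {N m m' : ℕ} (e : N ≤ m + m') :
    Bs c g x N (C.jet m c x * C.jet N g x + C.jet N c x * C.jet m' g x) := by
  intro i j a b s
  have p : ∀ i j, 0 ≤ C.jet i c x * C.jet j g x := fun _ _ =>
    mul_nonneg (jet_nonneg _ _) (jet_nonneg _ _)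
  rcases le_or_gt i m with q | q
  · exact le_add_of_le_of_nonneg (mul_le_mul (jet_mono q c) (jet_mono b g) (jet_nonneg _ _)
      (jet_nonneg _ _)) (p _ _)
  · exact le_add_of_nonneg_of_le (p _ _) (mul_le_mul (jet_mono a c) (jet_mono (by omega) g)
      (jet_nonneg _ _) (jet_nonneg _ _))

/-- An operation which is bounded by the products of the jets. -/
structure Op (C : Ch A) (Φ : List (Fin 5) → A → A → A) : Prop where
  bd : ∀ N, ∃ B, 0 ≤ B ∧ ∀ J c g (x : C.Pt) y, J.length = N → Bs c g x N y →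
    C.md x (Φ J c g) ≤ B * y
  tc : ∀ k I c g, C.T c = 0 → Φ (List.replicate k 0 ++ I) c g = Φ I c ((C.T)^[k] g)

theorem op_wd : Op C fun J c g => C.wd J (c * g) where
  bd N := ⟨2 ^ N, by positivity, fun J c g x y e b => e ▸ md_wd_mul J c g fun I1 I2 s =>
    (mul_le_mul (md_le_jet le_rfl c) (md_le_jet le_rfl g) (md_nonneg _ _) (jet_nonneg _ _)).trans
      (b _ _ (by have := s.1; omega) (by have := s.1; omega) (by have := s.1; omega))⟩
  tc k I c g hc := by rw [wd_append, wd_rep, it_mul hc]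

theorem cm_tc (k : ℕ) (I : List (Fin 5)) {c : A} (hc : C.T c = 0) (g : A) :
    cm C (List.replicate k 0 ++ I) c g = cm C I c ((C.T)^[k] g) := by
  rw [cm, cm, wd_append, wd_append, wd_rep, wd_rep, it_mul hc]

variable (h : C.Is)
include h

theorem E_X (b a : Fin 5) (f : A) : Ef C b (C.X a f) = C.X a (Ef C b f) := by
  fin_cases b
  exacts [D_X h 0 (by decide) a f, L_X h a f, D_X h 2 (by decide) a f, D_X h 3 (by decide) a f,
    D_X h 4 (by decide) a f]

theorem E_wd (b : Fin 5) (I : List (Fin 5)) (f : A) : Ef C b (C.wd I f) = C.wd I (Ef C b f) :=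
  wd_comm (E_X h b) I f

theorem E_it (b : Fin 5) (k : ℕ) (f : A) : Ef C b ((C.T)^[k] f) = (C.T)^[k] (Ef C b f) := by
  rw [← wd_rep, ← wd_rep, E_wd h]

theorem vf_eq (a : Fin 5 → A) (f : A) : C.vf a f = a 0 * Ef C 0 f + C.ri * a 1 * Ef C 1 f +
    a 2 * Ef C 2 f + a 3 * Ef C 3 f + a 4 * Ef C 4 f := by
  have e : C.vf a f = a 0 * C.T f + a 1 * C.R f + a 2 * C.an 0 f + a 3 * C.an 1 f +
      a 4 * C.an 2 f := by
    simp [Ch.vf, Fin.sum_univ_five, Ch.D]
  have e1 : Ef C 1 f = C.r * C.R f := rfl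
  rw [e, e1]
  have e0 : Ef C 0 f = C.T f := rfl
  have e2 : Ef C 2 f = C.an 0 f := rfl
  have e3 : Ef C 3 f = C.an 1 f := rfl
  have e4 : Ef C 4 f = C.an 2 f := rfl
  rw [e0, e2, e3, e4]
  linear_combination -(a 1 * C.R f) * h.hr

theorem md_rl (x : C.Pt) (t : ℝ) : C.md x (Ibp.rl A t) = |t| := by
  rw [Ch.md, Ibp.md, (h.ibp x.1).ev_rl, Complex.norm_real, Real.norm_eq_abs]

omit h in
theorem md_nat (x : C.Pt) (k : ℕ) : C.md x (k : A) = k := by
  rw [Ch.md, Ibp.md, map_natCast, Complex.norm_natCast]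

theorem mu_bd : ∃ B, 1 ≤ B ∧ ∀ (I : List (Fin 5)) (x : C.Pt) a i,
    C.md x (C.wd I (C.mu a i)) ≤ 2 * B ^ I.length := by
  set B := 1 + ∑ k, ∑ i, ∑ l, |C.eo k i l| with hB
  have p : ∀ k i, ∑ l, |C.eo k i l| ≤ B := fun k i => by
    have h1 := single_le_sum (f := fun i => ∑ l, |C.eo k i l|)
      (fun _ _ => by positivity) (mem_univ i)
    have h2 := single_le_sum (f := fun k => ∑ i, ∑ l, |C.eo k i l|)
      (fun _ _ => by positivity) (mem_univ k)
    linarith
  have B1 : 1 ≤ B := le_add_of_nonneg_right (by positivity)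
  refine ⟨B, B1, fun I x a => ?_⟩
  induction I with
  | nil => intro i; simpa [Ch.wd] using h.mu_le a i x
  | cons b I ih =>
    intro i
    have o : ∀ k, C.md x (C.wd I (C.Om k (C.mu a i))) ≤ 2 * B ^ (I.length + 1) := fun k => by
      rw [h.O_mu, wd_sum]
      refine (md_sum _ _ _).trans ((sum_le_sum (g := fun l => |C.eo k i l| * (2 * B ^ I.length))
        fun l _ => ?_).trans ?_)
      · rw [wd_cst fun a => Ibp.D_rl _ _, md_mul, md_rl h]
        exact mul_le_mul_of_nonneg_left (ih l) (abs_nonneg _)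
      · rw [← sum_mul, pow_succ]
        nlinarith [mul_le_mul_of_nonneg_right (p k i) (show 0 ≤ 2 * B ^ I.length by positivity)]
    have z : ∀ f : A, f = 0 → C.md x (C.wd I f) ≤ 2 * B ^ (I.length + 1) := fun f e => by
      rw [e, wd_zero, md_zero]; positivity
    rw [Ch.wd, List.length_cons]
    fin_cases b
    exacts [z _ (h.T_mu a i), z _ ((X_one _).trans (by rw [h.R_mu, mul_zero])), o 0, o 1, o 2]

omit h in
theorem X_om (i : Fin 3) : ∃ a, Ch.om1 a = 1 ∧ ∀ f, C.Om i f = C.X a f := by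
  fin_cases i
  exacts [⟨2, rfl, fun _ => rfl⟩, ⟨3, rfl, fun _ => rfl⟩, ⟨4, rfl, fun _ => rfl⟩]

/-- The angular fields in terms of the rotations. -/
theorem an_bd (N : ℕ) : ∃ B, 1 ≤ B ∧ ∀ (I : List (Fin 5)) (x : C.Pt) a g (Y : ℝ), I.length ≤ N →
    (∀ J : List (Fin 5), (J.length = I.length + 1 ∧ Ch.om I + 1 ≤ Ch.om J) ∨
      J.length ≤ I.length → C.md x (C.wd J g) ≤ Y) → C.md x (C.wd I (C.an a g)) ≤ B * Y := by
  obtain ⟨B, B1, hB⟩ := mu_bd h
  have q : 1 ≤ B ^ N := one_le_pow₀ B1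
  have q2 : (1 : ℝ) ≤ 2 ^ N := one_le_pow₀ one_le_two
  refine ⟨3 * (2 ^ N * (2 * B ^ N)), by nlinarith, fun I x a g Y e hY => ?_⟩
  have Y0 : 0 ≤ Y := (md_nonneg _ _).trans (hY [] (Or.inr (Nat.zero_le _)))
  rw [h.an_eq, wd_sum]
  refine (md_sum _ _ _).trans ((sum_le_card_nsmul _ _ (2 ^ N * (2 * B ^ N * Y)) fun i _ =>
    ?_).trans_eq (by simp; ring))
  obtain ⟨b, hb, eb⟩ := X_om (C := C) i
  refine (md_wd_mul I _ _ fun I1 I2 s => mul_le_mul ((hB I1 x a i).trans
    (mul_le_mul_of_nonneg_left (pow_le_pow_right₀ B1 (show I1.length ≤ N by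
      have := s.1; omega)) zero_le_two)) ?_ (md_nonneg _ _) (by positivity)).trans
    (mul_le_mul_of_nonneg_right (pow_le_pow_right₀ one_le_two e) (by positivity))
  rw [eb]
  refine hY (b :: I2) ?_
  obtain ⟨s1, s2⟩ := s
  rw [List.length_cons, om_cons, hb]
  cases I1 with
  | nil =>
    simp only [List.length_nil, Ch.om, List.map_nil, List.sum_nil, zero_add] at s1 s2
    exact Or.inl ⟨by omega, by simp only [Ch.om]; omega⟩
  | cons c I1 => rw [List.length_cons] at s1; exact Or.inr (by omega)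

theorem E_bd (N : ℕ) : ∃ B, 1 ≤ B ∧ ∀ (I : List (Fin 5)) (x : C.Pt) b g, I.length ≤ N →
    C.md x (C.wd I (Ef C b g)) ≤ B * C.jet (I.length + 1) g x := by
  obtain ⟨B, B1, hB⟩ := an_bd h N
  refine ⟨B, B1, fun I x b g e => ?_⟩
  have o := fun a => hB I x a g _ e fun J s => md_le_jet (n := I.length + 1) (by omega) g
  have z : ∀ a, C.md x (C.wd I (C.X a g)) ≤ B * C.jet (I.length + 1) g x := fun a =>
    (md_le_jet (I := a :: I) le_rfl g).trans (le_mul_of_one_le_left (jet_nonneg _ _) B1)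
  fin_cases b
  exacts [z 0, z 1, o 0, o 1, o 2]

theorem op_cm (b : Fin 5) : Op C fun J c g => cm C J c (Ef C b g) where
  bd N := by
    obtain ⟨B, B1, hB⟩ := E_bd h N
    refine ⟨2 ^ N * B, by positivity, fun J c g x y e s => ?_⟩
    rw [mul_assoc, ← e]
    refine md_cm J c _ (mul_nonneg (by positivity) s.nonneg) fun a I1 I2 t => ?_
    have t1 := t.1
    rw [List.length_cons] at t1
    refine (mul_le_mul (md_le_jet le_rfl c) (hB I2 x b g (by omega)) (md_nonneg _ _)
      (jet_nonneg _ _)).trans ?_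
    rw [mul_left_comm]
    exact mul_le_mul_of_nonneg_left (s _ _ (by rw [List.length_cons]; omega) (by omega)
      (by rw [List.length_cons]; omega)) (by positivity)
  tc k I c g hc := by rw [cm_tc k I hc, E_it h]

theorem rr_one (x : C.Pt) : 1 ≤ C.rr x := (h.one_le x.1).1.trans (h.rng _ _ (h.dom x)).1

theorem md_r (x : C.Pt) : C.md x C.r = C.rr x := by
  have := (h.ibp x.1).ev_re (f := C.r) (by rw [Ibp.Re, h.c_eq, h.c_r]) x.2
  rw [Ch.md, Ibp.md, this, Complex.norm_real, Real.norm_eq_abs]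
  exact abs_of_nonneg (zero_le_one.trans (rr_one h x))

theorem md_ri (x : C.Pt) : C.md x C.ri = (C.rr x)⁻¹ := by
  have := md_mul x C.r C.ri
  rw [h.hr, md_r h, ← Nat.cast_one, md_nat, Nat.cast_one] at this
  exact eq_inv_of_mul_eq_one_right this.symm

theorem md_wd_r (I : List (Fin 5)) (x : C.Pt) : C.md x (C.wd I C.r) ≤ C.rr x := by
  induction I with
  | nil => exact (md_r h x).le
  | cons a I ih =>
    rw [Ch.wd, X_r h]
    split_ifs
    · exact ih
    · rw [wd_zero, md_zero]; exact zero_le_one.trans (rr_one h x)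

theorem md_wd_ri (I : List (Fin 5)) (x : C.Pt) : C.md x (C.wd I C.ri) ≤ (C.rr x)⁻¹ := by
  induction I with
  | nil => exact (md_ri h x).le
  | cons a I ih =>
    rw [Ch.wd, X_ri h]
    split_ifs
    · rwa [wd_neg, md_neg]
    · rw [wd_zero, md_zero]; exact inv_nonneg.2 (zero_le_one.trans (rr_one h x))

theorem jet_r_mul {i N : ℕ} (e : i ≤ N) (c : A) (x : C.Pt) :
    C.jet i (C.r * c) x ≤ cw N * 2 ^ N * C.rr x * C.jet i c x := by
  have r0 := zero_le_one.trans (rr_one h x)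
  have p := mul_nonneg r0 (jet_nonneg (x := x) i c)
  have := jet_le (x := x) i (C.r * c) (y := 2 ^ N * (C.rr x * C.jet i c x)) fun I s =>
    (md_wd_mul I _ _ fun I1 I2 t => mul_le_mul (md_wd_r h I1 x)
      (md_le_jet (n := i) (by have := t.1; omega) c) (md_nonneg _ _) r0).trans
      (mul_le_mul_of_nonneg_right (pow_le_pow_right₀ one_le_two (s.trans e)) p)
  have q : cw i ≤ cw N := by
    unfold cw
    have : (i : ℝ) ≤ N := by exact_mod_cast e
    gcongr
    norm_num
  refine this.trans ((mul_le_mul_of_nonneg_right q (by positivity)).trans_eq (by ring))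

/-- The conjugation by r. -/
theorem Op.conj {Φ : List (Fin 5) → A → A → A} (o : Op C Φ) :
    Op C fun J c g => C.ri * Φ J (C.r * c) g where
  bd N := by
    obtain ⟨B, B0, hB⟩ := o.bd N
    have p := (cw_pos N).le
    refine ⟨B * (cw N * 2 ^ N), by positivity, fun J c g x y e s => ?_⟩
    have r0 : 0 < C.rr x := zero_lt_one.trans_le (rr_one h x)
    have := hB J (C.r * c) g x (cw N * 2 ^ N * C.rr x * y) e fun i j a b t =>
      (mul_le_mul_of_nonneg_right (jet_r_mul h a c x) (jet_nonneg _ _)).trans (by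
        rw [mul_assoc _ (C.jet i c x)]
        exact mul_le_mul_of_nonneg_left (s i j a b t) (by positivity))
    rw [md_mul, md_ri h, inv_mul_le_iff₀ r0]
    exact this.trans_eq (by ring)
  tc k I c g hc := by rw [o.tc k I _ g (by rw [D_mul, hc, T_r h]; ring)]

/-! ### The terms which are not small -/

/-- The words of the same length and higher rank and the shorter words are at most Y. -/
def Hi (I : List (Fin 5)) (g : A) (x : C.Pt) (Y : ℝ) : Prop :=
  ∀ J : List (Fin 5), (J.length = I.length ∧ Ch.om I + 1 ≤ Ch.om J) ∨ J.length < I.length →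
    C.md x (C.wd J g) ≤ Y

theorem hi_sqrt (I : List (Fin 5)) (g : A) (x : C.Pt) :
    Hi I g x √(C.val x (C.sw I.length (Ch.om I + 1) g) + C.val x (C.sl I.length g)) := by
  rintro J (⟨e, s⟩ | e) <;> refine Real.le_sqrt_of_sq_le ?_
  · exact le_add_of_le_of_nonneg (e ▸ md_le_sw h J s g) (sl_nonneg h _ _)
  · exact le_add_of_nonneg_of_le (sw_nonneg h _ _ _) (md_le_sl h e g)

variable {I : List (Fin 5)} {g : A} {x : C.Pt} {Y : ℝ}

omit h in
theorem hi_low (Y0 : 0 ≤ Y) (hY : ∀ J : List (Fin 5), J.length < I.length →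
    C.md x (C.wd J g) ≤ Y) {c : A} {s : ℝ} (s0 : 0 ≤ s) (hc : ∀ J : List (Fin 5),
    J.length ≤ I.length → C.md x (C.wd J c) ≤ s) :
    C.md x (cm C I c g) ≤ 2 ^ I.length * (s * Y) :=
  md_cm I c g (mul_nonneg s0 Y0) fun a I1 I2 t => mul_le_mul (hc _ (by have := t.1; omega))
    (hY _ (by have := t.1; rw [List.length_cons] at this; omega)) (md_nonneg _ _) s0

omit h in
theorem hi_T (Y0 : 0 ≤ Y) (hY : Hi I g x Y) {c : A} (hc : C.T c = 0) :
    C.md x (cm C I c (Ef C 0 g)) ≤ 2 ^ I.length * (C.jet I.length c x * Y) := by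
  have p := mul_nonneg (jet_nonneg (x := x) I.length c) Y0
  refine md_cm I c _ p fun a I1 I2 ⟨s1, s2⟩ => ?_
  rw [List.length_cons] at s1
  by_cases a0 : a = 0
  · rw [a0, Ch.wd, show C.X 0 c = 0 from hc, wd_zero, md_zero, zero_mul]; exact p
  refine mul_le_mul (md_le_jet (by rw [List.length_cons]; omega) c) (hY (0 :: I2) ?_)
    (md_nonneg _ _) (jet_nonneg _ _)
  rw [om_cons] at s2
  rw [List.length_cons, om_cons]
  have : Ch.om1 a ≤ 1 := (by decide : ∀ a : Fin 5, ¬a = 0 → Ch.om1 a ≤ 1) a a0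
  have : Ch.om1 0 = 2 := rfl
  cases I1 with
  | nil =>
    have : Ch.om [] = 0 := rfl
    exact Or.inl ⟨by simpa [add_comm] using s1, by omega⟩
  | cons c I1 => rw [List.length_cons] at s1; exact Or.inr (by omega)

theorem hi_an (N : ℕ) : ∃ B, 0 ≤ B ∧ ∀ (I : List (Fin 5)) (x : C.Pt) a g (Y : ℝ), I.length = N →
    0 ≤ Y → Hi I g x Y → C.md x (cm C I C.ri (C.an a g)) ≤ B * ((C.rr x)⁻¹ * Y) := by
  obtain ⟨B, B1, hB⟩ := an_bd h N
  refine ⟨2 ^ N * B, by positivity, fun I x a g Y e Y0 hY => ?_⟩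
  have r0 : 0 ≤ (C.rr x)⁻¹ := inv_nonneg.2 (zero_le_one.trans (rr_one h x))
  have p : 0 ≤ (C.rr x)⁻¹ * (B * Y) := by positivity
  rw [mul_assoc, ← e, mul_left_comm B]
  refine md_cm I _ _ p fun b I1 I2 ⟨s1, s2⟩ => ?_
  rw [List.length_cons] at s1
  by_cases b1 : b = 1
  swap
  · rw [Ch.wd, X_ri h, if_neg b1, wd_zero, md_zero, zero_mul]; exact p
  refine mul_le_mul (md_wd_ri h _ x) (hB I2 x a g Y (by omega) fun J s => hY J ?_)
    (md_nonneg _ _) r0
  rw [om_cons, b1] at s2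
  have : Ch.om1 1 = 0 := rfl
  cases I1 with
  | nil =>
    have : Ch.om [] = 0 := rfl
    rw [List.length_nil] at s1
    omega
  | cons c I1 => rw [List.length_cons] at s1; omega

theorem hi_L (Y0 : 0 ≤ Y) (hY : ∀ J : List (Fin 5), J.length < I.length →
    C.md x (C.wd J g) ≤ Y) : C.md x (cm C I C.ri (Ef C 1 g) + (Ch.la I : A) * C.ri * C.wd I g) ≤
      2 * 2 ^ I.length * ((C.rr x)⁻¹ * Y) := by
  have r0 : 0 ≤ (C.rr x)⁻¹ := inv_nonneg.2 (zero_le_one.trans (rr_one h x))
  induction I generalizing g with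
  | nil => simp only [cm, Ch.wd, Ch.la, List.count_nil, Nat.cast_zero, zero_mul, sub_self,
      add_zero, md_zero]; positivity
  | cons a I ih =>
    have h1 := ih (g := C.X a g) fun J e => hY (a :: J) (by simpa using e)
    have p : 0 ≤ 2 ^ I.length * ((C.rr x)⁻¹ * Y) := by positivity
    rw [cm_cons, ← E_X h, X_ri h, List.length_cons, pow_succ, Ch.wd]
    by_cases a1 : a = 1
    · subst a1
      have h2 : C.md x (cm C I C.ri (C.X 1 g)) ≤ 2 ^ I.length * ((C.rr x)⁻¹ * Y) :=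
        hi_low Y0 (fun J e => hY (1 :: J) (by simpa using e)) r0 fun J _ => md_wd_ri h J x
      have e : cm C I C.ri (Ef C 1 (C.X 1 g)) + C.wd I ((if (1 : Fin 5) = 1 then -C.ri else 0) *
          Ef C 1 g) + (Ch.la (1 :: I) : A) * C.ri * C.wd I (C.X 1 g) =
          cm C I C.ri (Ef C 1 (C.X 1 g)) + (Ch.la I : A) * C.ri * C.wd I (C.X 1 g) -
          cm C I C.ri (C.X 1 g) := by
        have : Ef C 1 g = C.X 1 g := rfl
        rw [if_pos rfl, this, neg_mul, wd_neg, Ch.la, List.count_cons_self, Ch.la]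
        simp only [cm, Nat.cast_add, Nat.cast_one]
        ring
      rw [e]
      linarith [md_sub x (cm C I C.ri (Ef C 1 (C.X 1 g)) + (Ch.la I : A) * C.ri *
        C.wd I (C.X 1 g)) (cm C I C.ri (C.X 1 g))]
    · rw [if_neg a1, zero_mul, wd_zero, add_zero, Ch.la, List.count_cons_of_ne a1]
      exact h1.trans (by linarith)

end Vale.Agent.P354YS
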