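import Vale.Agent.P354XZ.Defs
import Vale.Agent.P354XI.Tool

/-!
Words in the letters of the far chart: Leibniz rule and commutators by splittings, jets.
-/

noncomputable section

namespace Vale.Agent.P354YS

open Vale.Agent.P354XG (Der D_mul D_add D_sub D_neg D_alg D_zero D_one)
open Vale.Agent.P354XI Vale.Agent.P354XZ Finset

variable {A : Type} [CommRing A] [Algebra ℂ A] {C : Ch A}

theorem md_nonneg (x : C.Pt) (f : A) : 0 ≤ C.md x f := Ibp.md_nonneg _ _
theorem md_add (x : C.Pt) (f g : A) : C.md x (f + g) ≤ C.md x f + C.md x g := Ibp.md_add _ _ _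
theorem md_sub (x : C.Pt) (f g : A) : C.md x (f - g) ≤ C.md x f + C.md x g := Ibp.md_sub _ _ _
theorem md_mul (x : C.Pt) (f g : A) : C.md x (f * g) = C.md x f * C.md x g := Ibp.md_mul _ _ _
theorem md_neg (x : C.Pt) (f : A) : C.md x (-f) = C.md x f := Ibp.md_neg _ _
theorem md_zero (x : C.Pt) : C.md x 0 = 0 := Ibp.md_zero _
theorem md_sum {ι : Type} (x : C.Pt) (s : Finset ι) (f : ι → A) :
    C.md x (∑ i ∈ s, f i) ≤ ∑ i ∈ s, C.md x (f i) := Ibp.md_sum _ _ _
theorem val_add (x : C.Pt) (f g : A) : C.val x (f + g) = C.val x f + C.val x g :=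
  Ibp.val_add _ _ _
theorem val_sum {ι : Type} (x : C.Pt) (s : Finset ι) (f : ι → A) :
    C.val x (∑ i ∈ s, f i) = ∑ i ∈ s, C.val x (f i) := Ibp.val_sum _ _ _

theorem wd_add (I : List (Fin 5)) (f g : A) : C.wd I (f + g) = C.wd I f + C.wd I g := by
  induction I generalizing f g with
  | nil => rfl
  | cons a I ih => rw [Ch.wd, D_add, ih, Ch.wd, Ch.wd]

theorem wd_neg (I : List (Fin 5)) (f : A) : C.wd I (-f) = -C.wd I f := by
  induction I generalizing f with
  | nil => rfl
  | cons a I ih => rw [Ch.wd, D_neg, ih, Ch.wd]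

theorem wd_sub (I : List (Fin 5)) (f g : A) : C.wd I (f - g) = C.wd I f - C.wd I g := by
  rw [sub_eq_add_neg, wd_add, wd_neg, sub_eq_add_neg]

theorem wd_zero (I : List (Fin 5)) : C.wd I 0 = 0 := by
  induction I with
  | nil => rfl
  | cons a I ih => rw [Ch.wd, D_zero, ih]

theorem wd_sum {κ : Type} (s : Finset κ) (I : List (Fin 5)) (f : κ → A) :
    C.wd I (∑ i ∈ s, f i) = ∑ i ∈ s, C.wd I (f i) := by
  induction I generalizing f with
  | nil => rfl
  | cons a I ih => rw [Ch.wd, map_sum, ih]; rfl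

theorem wd_cst {k : A} (hk : ∀ a, C.X a k = 0) (I : List (Fin 5)) (f : A) :
    C.wd I (k * f) = k * C.wd I f := by
  induction I generalizing f with
  | nil => rfl
  | cons a I ih => rw [Ch.wd, D_mul, hk, mul_zero, add_zero, ih, Ch.wd]

theorem wd_nat (k : ℕ) (I : List (Fin 5)) (f : A) : C.wd I (k * f) = k * C.wd I f :=
  wd_cst (fun a => (C.X a).map_natCast k) I f

theorem wd_comm {D : Der A} (hD : ∀ a f, D (C.X a f) = C.X a (D f)) (I : List (Fin 5)) (f : A) :
    D (C.wd I f) = C.wd I (D f) := by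
  induction I generalizing f with
  | nil => rfl
  | cons a I ih => rw [Ch.wd, ih, hD, Ch.wd]

theorem wd_append (I I' : List (Fin 5)) (f : A) : C.wd (I ++ I') f = C.wd I' (C.wd I f) := by
  induction I generalizing f with
  | nil => rfl
  | cons a I ih => rw [List.cons_append, Ch.wd, ih, Ch.wd]

theorem wd_rep (k : ℕ) (f : A) : C.wd (List.replicate k 0) f = (C.T)^[k] f := by
  induction k generalizing f with
  | zero => rfl
  | succ k ih => rw [List.replicate_succ, Ch.wd, ih]; rfl

theorem it_mul {c : A} (hc : C.T c = 0) (k : ℕ) (g : A) :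
    (C.T)^[k] (c * g) = c * (C.T)^[k] g := by
  induction k generalizing g with
  | zero => rfl
  | succ k ih =>
    rw [Function.iterate_succ_apply, Function.iterate_succ_apply, D_mul, hc, mul_zero, add_zero, ih]

theorem om_cons (a : Fin 5) (I : List (Fin 5)) : Ch.om (a :: I) = Ch.om1 a + Ch.om I := by
  simp [Ch.om]

/-- The commutator of a word with the multiplication by c. -/
def cm (C : Ch A) (I : List (Fin 5)) (c g : A) : A := C.wd I (c * g) - c * C.wd I g

theorem cm_cons (a : Fin 5) (I : List (Fin 5)) (c g : A) :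
    cm C (a :: I) c g = cm C I c (C.X a g) + C.wd I (C.X a c * g) := by
  simp only [cm, Ch.wd, D_mul, wd_add, mul_comm g]; ring

theorem cm_add (I : List (Fin 5)) (c c' g : A) :
    cm C I (c + c') g = cm C I c g + cm C I c' g := by
  simp only [cm, add_mul, wd_add]; ring

theorem cm_cst {k : A} (hk : ∀ a, C.X a k = 0) (I : List (Fin 5)) (g : A) : cm C I k g = 0 := by
  rw [cm, wd_cst hk, sub_self]

/-- Lengths and ranks are additive. -/
def Sp (I I1 I2 : List (Fin 5)) : Prop :=
  I1.length + I2.length = I.length ∧ Ch.om I1 + Ch.om I2 = Ch.om I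

theorem Sp.l {I I1 I2 : List (Fin 5)} (h : Sp I I1 I2) (a : Fin 5) : Sp (a :: I) (a :: I1) I2 := by
  obtain ⟨h1, h2⟩ := h
  simp only [Sp, List.length_cons, om_cons]
  omega

theorem Sp.r {I I1 I2 : List (Fin 5)} (h : Sp I I1 I2) (a : Fin 5) : Sp (a :: I) I1 (a :: I2) := by
  obtain ⟨h1, h2⟩ := h
  simp only [Sp, List.length_cons, om_cons]
  omega

variable {x : C.Pt}

theorem md_wd_mul (I : List (Fin 5)) (f g : A) {y : ℝ}
    (h : ∀ I1 I2, Sp I I1 I2 → C.md x (C.wd I1 f) * C.md x (C.wd I2 g) ≤ y) :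
    C.md x (C.wd I (f * g)) ≤ 2 ^ I.length * y := by
  induction I generalizing f g with
  | nil => simpa [Ch.wd, md_mul] using h [] [] ⟨rfl, rfl⟩
  | cons a I ih =>
    have h1 := ih f (C.X a g) fun I1 I2 s => h I1 (a :: I2) (s.r a)
    have h2 := ih (C.X a f) g fun I1 I2 s => h (a :: I1) I2 (s.l a)
    rw [Ch.wd, D_mul, wd_add, mul_comm g, List.length_cons, pow_succ]
    linarith [md_add x (C.wd I (f * C.X a g)) (C.wd I (C.X a f * g))]

theorem md_cm (I : List (Fin 5)) (c g : A) {y : ℝ} (y0 : 0 ≤ y)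
    (h : ∀ a I1 I2, Sp I (a :: I1) I2 → C.md x (C.wd (a :: I1) c) * C.md x (C.wd I2 g) ≤ y) :
    C.md x (cm C I c g) ≤ 2 ^ I.length * y := by
  induction I generalizing g with
  | nil => simpa [cm, Ch.wd, md_zero] using y0
  | cons a I ih =>
    have h1 := ih (C.X a g) fun b I1 I2 s => h b I1 (a :: I2) (s.r a)
    have h2 := md_wd_mul I (C.X a c) g fun I1 I2 s => h a I1 I2 (s.l a)
    rw [cm_cons, List.length_cons, pow_succ]
    linarith [md_add x (cm C I c (C.X a g)) (C.wd I (C.X a c * g))]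

/-! ### Jets -/

theorem je_nonneg (n : ℕ) (f : A) : 0 ≤ C.je n f x := by
  induction n generalizing f with
  | zero => exact md_nonneg _ _
  | succ n ih => exact sum_nonneg fun a _ => ih _

theorem jet_nonneg (n : ℕ) (f : A) : 0 ≤ C.jet n f x := sum_nonneg fun _ _ => je_nonneg _ _

theorem md_le_je (I : List (Fin 5)) (f : A) : C.md x (C.wd I f) ≤ C.je I.length f x := by
  induction I generalizing f with
  | nil => exact le_rfl
  | cons a I ih =>
    exact (ih _).trans (single_le_sum (f := fun a => C.je I.length (C.X a f) x)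
      (fun _ _ => je_nonneg _ _) (mem_univ a))

theorem jet_mono {m n : ℕ} (e : m ≤ n) (f : A) : C.jet m f x ≤ C.jet n f x :=
  sum_le_sum_of_subset_of_nonneg (range_mono (by omega)) fun _ _ _ => je_nonneg _ _

theorem md_le_jet {I : List (Fin 5)} {n : ℕ} (e : I.length ≤ n) (f : A) :
    C.md x (C.wd I f) ≤ C.jet n f x :=
  (md_le_je I f).trans (single_le_sum (f := fun i => C.je i f x) (fun _ _ => je_nonneg _ _)
    (mem_range.2 (by omega)))

theorem je_le (n : ℕ) (f : A) {y : ℝ} (h : ∀ I, I.length = n → C.md x (C.wd I f) ≤ y) :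
    C.je n f x ≤ 5 ^ n * y := by
  induction n generalizing f with
  | zero => rw [pow_zero, one_mul]; exact h [] rfl
  | succ n ih =>
    have := sum_le_card_nsmul univ (fun a => C.je n (C.X a f) x) _ fun a _ =>
      ih (C.X a f) fun I e => h (a :: I) (by rw [List.length_cons, e])
    rw [Ch.je, pow_succ]
    simpa [mul_comm, mul_left_comm] using this

/-- The number of words. -/
def cw (n : ℕ) : ℝ := (n + 1) * 5 ^ n

theorem cw_pos (n : ℕ) : 0 < cw n := by unfold cw; positivity

theorem jet_le (n : ℕ) (f : A) {y : ℝ} (h : ∀ I, I.length ≤ n → C.md x (C.wd I f) ≤ y) :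
    C.jet n f x ≤ cw n * y := by
  have y0 : 0 ≤ y := (md_nonneg _ _).trans (h [] (Nat.zero_le n))
  have := sum_le_card_nsmul (range (n + 1)) (fun i => C.je i f x) (5 ^ n * y) fun i hi => by
    have e := Nat.lt_succ_iff.1 (mem_range.1 hi)
    exact (je_le i f fun I e' => h I (by omega)).trans
      (mul_le_mul_of_nonneg_right (pow_le_pow_right₀ (by norm_num) e) y0)
  rw [Ch.jet, cw, mul_assoc]
  simpa using this

theorem jet_zero (n : ℕ) : C.jet n 0 x = 0 :=
  le_antisymm (by simpa using jet_le n 0 (y := 0) fun I _ => by rw [wd_zero, md_zero])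
    (jet_nonneg _ _)

theorem jet_mul (n : ℕ) (f g : A) :
    C.jet n (f * g) x ≤ cw n * 2 ^ n * (C.jet n f x * C.jet n g x) := by
  rw [mul_assoc]
  refine jet_le n _ fun I e => (md_wd_mul I f g fun I1 I2 s => mul_le_mul
    (md_le_jet (by have := s.1; omega) f) (md_le_jet (by have := s.1; omega) g) (md_nonneg _ _)
    (jet_nonneg n f)).trans (mul_le_mul_of_nonneg_right (pow_le_pow_right₀ (by norm_num) e)
    (mul_nonneg (jet_nonneg _ _) (jet_nonneg _ _)))

variable (h : C.Is)
include h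

theorem val_sq (f : A) : C.val x (f * C.c f) = C.md x f ^ 2 := by
  have := (h.ibp x.1).val_nsq (w := 1) (map_one _) x.2 f
  rw [one_mul, Ibp.val_one, one_mul, h.c_eq] at this
  exact this

theorem sw_nonneg (n k : ℕ) (f : A) : 0 ≤ C.val x (C.sw n k f) := by
  induction n generalizing k f with
  | zero =>
    rw [Ch.sw]
    split_ifs
    · rw [val_sq h]; positivity
    · exact (Ibp.val_zero _).ge
  | succ n ih => rw [Ch.sw, val_sum]; exact sum_nonneg fun a _ => ih _ _

theorem sl_nonneg (n : ℕ) (f : A) : 0 ≤ C.val x (C.sl n f) := by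
  rw [Ch.sl, val_sum]; exact sum_nonneg fun i _ => sw_nonneg h _ _ _

theorem sw_zero (f : A) : C.val x (C.sw 0 0 f) = C.md x f ^ 2 := by
  rw [Ch.sw, if_pos rfl, val_sq h]

theorem md_le_sw (I : List (Fin 5)) {k : ℕ} (e : k ≤ Ch.om I) (f : A) :
    C.md x (C.wd I f) ^ 2 ≤ C.val x (C.sw I.length k f) := by
  induction I generalizing k f with
  | nil =>
    obtain rfl : k = 0 := Nat.le_zero.1 e
    exact (sw_zero h f).ge
  | cons a I ih =>
    rw [om_cons] at e
    rw [List.length_cons, Ch.sw, val_sum]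
    exact (ih (by omega) _).trans (single_le_sum
      (f := fun a => C.val x (C.sw I.length (k - Ch.om1 a) (C.X a f)))
      (fun _ _ => sw_nonneg h _ _ _) (mem_univ a))

theorem md_le_sl {I : List (Fin 5)} {n : ℕ} (e : I.length < n) (f : A) :
    C.md x (C.wd I f) ^ 2 ≤ C.val x (C.sl n f) := by
  rw [Ch.sl, val_sum]
  exact (md_le_sw h I (Nat.zero_le _) f).trans (single_le_sum
    (f := fun i => C.val x (C.sw i 0 f)) (fun _ _ => sw_nonneg h _ _ _) (mem_range.2 e))

theorem jet_le_sl (n : ℕ) (f : A) : C.jet n f x ^ 2 ≤ cw n ^ 2 * C.val x (C.sl (n + 1) f) := by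
  have := jet_le n f (y := √(C.val x (C.sl (n + 1) f))) fun I e =>
    Real.le_sqrt_of_sq_le (md_le_sl h (by omega) f)
  refine (pow_le_pow_left₀ (jet_nonneg _ _) this 2).trans_eq ?_
  rw [mul_pow, Real.sq_sqrt (sl_nonneg h _ _)]

/-! ### The letters -/

omit h in
theorem X_one (f : A) : C.X 1 f = C.r * C.R f := rfl

theorem c_X (a : Fin 5) (f : A) (j : C.J) : C.c (C.X a f) = C.X a (C.c f) := by
  have hT := (h.skT j).re f
  have hR := (h.skR j).re f
  have hO := fun i => (h.skO j i).re f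
  rw [h.c_eq] at hT hR hO
  fin_cases a
  exacts [hT, by
    change C.c (C.r * C.R f) = C.r * C.R (C.c f)
    rw [map_mul, h.c_r, hR], hO 0, hO 1, hO 2]

theorem md_c (f : A) : C.md x (C.c f) = C.md x f := by
  rw [← h.c_eq x.1]; exact (h.ibp x.1).md_c _ _

theorem je_c (n : ℕ) (f : A) : C.je n (C.c f) x = C.je n f x := by
  induction n generalizing f with
  | zero => exact md_c h f
  | succ n ih => simp only [Ch.je, ← c_X h _ _ x.1, ih]

theorem jet_c (n : ℕ) (f : A) : C.jet n (C.c f) x = C.jet n f x := by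
  simp only [Ch.jet, je_c h]

theorem D_r (a : Fin 5) (e : a ≠ 1) : C.D a C.r = 0 := by rw [h.D_r, if_neg e]
theorem R_r : C.R C.r = 1 := (h.D_r 1).trans (if_pos rfl)
theorem T_r : C.T C.r = 0 := D_r h 0 (by decide)

/-- The basis fields other than R commute with the letters. -/
theorem D_X (b : Fin 5) (e : b ≠ 1) (a : Fin 5) (f : A) : C.D b (C.X a f) = C.X a (C.D b f) := by
  fin_cases a
  exacts [(h.T_D b f).symm, by
    change C.D b (C.r * C.R f) = C.r * C.R (C.D b f)
    rw [D_mul, D_r h b e, mul_zero, add_zero, h.R_D], (h.O_D 0 b f).symm, (h.O_D 1 b f).symm,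
    (h.O_D 2 b f).symm]

theorem L_X (a : Fin 5) (f : A) : C.X 1 (C.X a f) = C.X a (C.X 1 f) := by
  have k : ∀ i, C.X 1 (C.Om i f) = C.Om i (C.X 1 f) := fun i => by
    rw [X_one, X_one, D_mul, h.O_r, mul_zero, add_zero]
    exact congrArg _ (h.O_D i 1 f).symm
  fin_cases a
  exacts [(D_X h 0 (by decide) 1 f).symm, rfl, k 0, k 1, k 2]

theorem X_r (a : Fin 5) : C.X a C.r = if a = 1 then C.r else 0 := by
  fin_cases a
  exacts [T_r h, (X_one _).trans (by rw [R_r h, mul_one]; rfl), h.O_r 0, h.O_r 1, h.O_r 2]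

theorem X_ri (a : Fin 5) : C.X a C.ri = if a = 1 then -C.ri else 0 := by
  have e := congrArg (C.X a) h.hr
  rw [D_mul, D_one, X_r h] at e
  split_ifs at e ⊢
  · linear_combination C.ri * e - (C.X a C.ri + C.ri) * h.hr
  · linear_combination C.ri * e - C.X a C.ri * h.hr

end Vale.Agent.P354YS
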