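import Vale.Agent.P354YS.Chk
import Vale.Agent.P354XZ.Props2
import Vale.Agent.P354YF.Sy

/-!
The terms of the commuted sources: the calculus of admissible terms.
-/

open Set

noncomputable section

namespace Vale.Agent.P354YS

open Vale.Agent.P354XI Vale.Agent.P354XZ

variable {A : Type} [CommRing A] [Algebra ℂ A] {C : Ch A}

section
variable (h : C.Is) {D : Fin 5 → Fam C.J} (hD : ∀ i, Ps (D i)) {o : A → A} {x : C.Pt}
  (ho : ∀ f, 0 ≤ C.val x (o f)) (Vw : List Lt → Fin 5 → A) (k : ℕ)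
include h hD ho

theorem dW_nonneg (s : ℕ) : 0 ≤ C.val x (C.dW D o Vw k s) := by
  rw [Ch.dW, val_sum]; exact Finset.sum_nonneg fun _ _ => dn_nonneg h hD ho _

theorem le_dW {s : ℕ} (w : Fin s → Lt) (c : Fin 5) :
    C.at' (D c) x * C.val x (o (C.Vs Vw k s w c)) ≤ C.val x (C.dW D o Vw k s) := by
  rw [Ch.dW, val_sum]
  exact (le_dn h hD ho _ c).trans (Finset.single_le_sum
    (f := fun w => C.val x (C.dn D o (C.Vs Vw k s w))) (fun _ _ => dn_nonneg h hD ho _)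
    (Finset.mem_univ w))

theorem dW_le {s s' : ℕ} (e : s' ≤ s) :
    C.val x (C.dW D o Vw k s') ≤ C.val x (C.dWl D o Vw k s) := by
  rw [Ch.dWl, val_sum]
  exact Finset.single_le_sum (f := fun s => C.val x (C.dW D o Vw k s))
    (fun _ _ => dW_nonneg h hD ho Vw k _) (Finset.mem_range.2 (by omega))

end

section
variable (h : C.Is) {p : Fam C.J} (hp : Ps p) (l : ℝ) {o : A → A} {x : C.Pt}
  (ho : ∀ f, 0 ≤ C.val x (o f)) (U : Un A)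
include h hp ho

theorem le_dGb (i : Fin 7) : C.at' (C.Zb l) x * C.val x (o (U.b i)) ≤ C.val x (C.dG p l o U) := by
  rw [Ch.dG, val_add, val_add]
  linarith [le_dn h (D := fun _ => C.Zb l) (fun _ => ps_mon h ..) ho U.b i,
    dn_nonneg h (D := fun _ => C.Zg l) (fun _ => ps_mon h ..) ho U.g,
    dn_nonneg h (ps_Zh h hp l) ho U.h]

theorem le_dGg (i : Fin 9) : C.at' (C.Zg l) x * C.val x (o (U.g i)) ≤ C.val x (C.dG p l o U) := by
  rw [Ch.dG, val_add, val_add]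
  linarith [le_dn h (D := fun _ => C.Zg l) (fun _ => ps_mon h ..) ho U.g i,
    dn_nonneg h (D := fun _ => C.Zb l) (fun _ => ps_mon h ..) ho U.b,
    dn_nonneg h (ps_Zh h hp l) ho U.h]

theorem dG_nonneg : 0 ≤ C.val x (C.dG p l o U) :=
  (mul_nonneg ((ps_mon h ..).at h x).le (ho _)).trans (le_dGb h hp l ho U 0)

end

/-- The data of the estimate. -/
structure Sit (F F0 : NF A) (K : Cut C) (Vw : List Lt → Fin 5 → A) {s : ℕ}
    (am : (Fin s → Lt) → (Fin s → Lt) → ℤ) (n : ℕ) where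
  k : ℕ
  SA : (Fin s → Lt) → Fin 4 → A
  SB : (Fin s → Lt) → Fin 4 → A
  I : List (Fin 5)
  m : ℕ
  m' : ℕ
  N : ℕ
  l : ℝ
  x : C.Pt
  sys : F.SysW C 0 am (C.Vs Vw 0 s) SA SB
  len : I.length = n
  tg : C.TabG m K.ep (F.df F0 C) univ
  ta : C.TabA (n + k) K.ep F.al
  tw : C.TabW m' N K.ep Vw
  rg : Rng n k s m m' N l

variable {F F0 : NF A} {K : Cut C} {Vw : List Lt → Fin 5 → A} {s : ℕ}
  {am : (Fin s → Lt) → (Fin s → Lt) → ℤ} {n : ℕ}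

namespace Sit
variable (σ : Sit F F0 K Vw am n)

def J : List (Fin 5) := List.replicate σ.k 0 ++ σ.I
def dw (c : Fin 5) : ℝ := C.at' (C.Dw K.p σ.l c) σ.x
def ρ : ℝ := (C.rr σ.x)⁻¹
def P1 : ℝ := C.val σ.x (∑ w, (C.dn (C.OA K.p σ.l) (C.sl (n + 1))
  (fun i => (C.T)^[σ.k] (σ.SA w i)) + C.dn (C.OB K.p σ.l) (C.sl (n + 1))
    fun i => (C.T)^[σ.k] (σ.SB w i)))
def P2 : ℝ := C.val σ.x (C.dW (C.Dw K.p σ.l) (C.sw n (Ch.om σ.I + 1)) Vw σ.k s +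
  C.dW (C.Dw K.p σ.l) (C.sl n) Vw σ.k s)
def P3 : ℝ := C.val σ.x (C.dWl (C.Dw K.p σ.l) (C.sl (n + 1)) Vw σ.k s +
  C.dG K.p σ.l (C.sl (n + 1)) ((F.df F0 C).map (C.T)^[σ.k]))
def P4 : ℝ := C.val σ.x (C.dWl (C.Dw K.p σ.l) (C.sl (n + σ.k + 1)) Vw 0 s +
  C.dG K.p σ.l (C.sl (n + σ.k + 1)) (F.df F0 C))
def E : ℝ := σ.P1 + σ.P2 + K.de σ.x.1 ^ 2 * σ.P3
def E' : ℝ := (K.ep σ.x.1 * K.pm σ.x.1) ^ 2 * σ.P4

theorem J_len : σ.J.length = n + σ.k := by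
  rw [J, List.length_append, List.length_replicate, σ.len, add_comm]

theorem l_mem : 0 ≤ σ.l ∧ σ.l ≤ 1 / 100 := by
  rcases σ.rg.1 with ⟨e, -⟩ | ⟨e, -⟩
  · exact e
  · rw [e]; norm_num

variable (h : C.Is) (hK : K.Is)
include h hK

theorem dw_pos (c : Fin 5) : 0 < σ.dw c := (ps_Dw h (ps_p hK) _ c).at h _

theorem le_P1 (w : Fin s → Lt) (i : Fin 4) : C.at' (C.OA K.p σ.l i) σ.x *
    C.val σ.x (C.sl (n + 1) ((C.T)^[σ.k] (σ.SA w i))) ≤ σ.P1 ∧ C.at' (C.OB K.p σ.l i) σ.x *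
    C.val σ.x (C.sl (n + 1) ((C.T)^[σ.k] (σ.SB w i))) ≤ σ.P1 := by
  have a := fun w => dn_nonneg h (ps_OA h (ps_p hK) σ.l) (sl_nonneg (x := σ.x) h (n + 1))
    fun i => (C.T)^[σ.k] (σ.SA w i)
  have b := fun w => dn_nonneg h (ps_OB h (ps_p hK) σ.l) (sl_nonneg (x := σ.x) h (n + 1))
    fun i => (C.T)^[σ.k] (σ.SB w i)
  have c := Finset.single_le_sum (fun w (_ : w ∈ Finset.univ) => add_nonneg (a w) (b w))
    (Finset.mem_univ w)
  simp only [P1, val_sum, val_add]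
  exact ⟨(le_dn h (ps_OA h (ps_p hK) σ.l) (sl_nonneg h (n + 1)) _ i).trans
    ((le_add_of_nonneg_right (b w)).trans c), (le_dn h (ps_OB h (ps_p hK) σ.l)
    (sl_nonneg h (n + 1)) _ i).trans ((le_add_of_nonneg_left (a w)).trans c)⟩

theorem P1_nonneg : 0 ≤ σ.P1 := by
  simp only [P1, val_sum, val_add]
  exact Finset.sum_nonneg fun w _ => add_nonneg
    (dn_nonneg h (ps_OA h (ps_p hK) σ.l) (sl_nonneg h _) _)
    (dn_nonneg h (ps_OB h (ps_p hK) σ.l) (sl_nonneg h _) _)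

theorem le_P2 (w : Fin s → Lt) (c : Fin 5) : σ.dw c * (C.val σ.x (C.sw n (Ch.om σ.I + 1)
    (C.Vs Vw σ.k s w c)) + C.val σ.x (C.sl n (C.Vs Vw σ.k s w c))) ≤ σ.P2 := by
  rw [P2, val_add, mul_add]
  exact add_le_add (le_dW h (ps_Dw h (ps_p hK) _) (sw_nonneg h _ _) Vw _ w c)
    (le_dW h (ps_Dw h (ps_p hK) _) (sl_nonneg h _) Vw _ w c)

theorem P2_nonneg : 0 ≤ σ.P2 := by
  rw [P2, val_add]
  exact add_nonneg (dW_nonneg h (ps_Dw h (ps_p hK) _) (sw_nonneg h _ _) Vw _ _)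
    (dW_nonneg h (ps_Dw h (ps_p hK) _) (sl_nonneg h _) Vw _ _)

omit σ in
theorem le_V (l : ℝ) (x : C.Pt) (N k : ℕ) (U : Un A) (w : Fin s → Lt) (c : Fin 5) :
    C.at' (C.Dw K.p l c) x * C.jet N (C.Vs Vw k s w c) x ^ 2 ≤
      cw N ^ 2 * C.val x (C.dWl (C.Dw K.p l) (C.sl (N + 1)) Vw k s +
        C.dG K.p l (C.sl (N + 1)) U) := by
  have d := ps_Dw h (ps_p hK) l
  refine (mul_le_mul_of_nonneg_left (jet_le_sl h N _) ((d c).at h x).le).trans ?_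
  rw [mul_left_comm, val_add]
  exact mul_le_mul_of_nonneg_left (le_add_of_le_of_nonneg ((le_dW h d (sl_nonneg h _) Vw k w
    c).trans (dW_le h d (sl_nonneg h _) Vw k le_rfl)) (dG_nonneg h (ps_p hK) l (sl_nonneg h _) U))
    (sq_nonneg _)

omit σ in
theorem le_G (l : ℝ) (x : C.Pt) (N k : ℕ) (U : Un A) {Z : ℝ} (Z0 : 0 ≤ Z) {γ : A}
    (e : Z * C.val x (C.sl (N + 1) γ) ≤ C.val x (C.dG K.p l (C.sl (N + 1)) U)) :
    Z * C.jet N γ x ^ 2 ≤ cw N ^ 2 * C.val x (C.dWl (C.Dw K.p l) (C.sl (N + 1)) Vw k s +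
        C.dG K.p l (C.sl (N + 1)) U) := by
  have d := ps_Dw h (ps_p hK) l
  refine (mul_le_mul_of_nonneg_left (jet_le_sl h N _) Z0).trans ?_
  rw [mul_left_comm, val_add]
  exact mul_le_mul_of_nonneg_left (le_add_of_nonneg_of_le ((dW_nonneg h d (sl_nonneg h _) Vw k
    s).trans (dW_le h d (sl_nonneg h _) Vw k le_rfl)) e) (sq_nonneg _)

omit σ in
theorem P_nonneg (l : ℝ) (x : C.Pt) (N k : ℕ) (U : Un A) : 0 ≤
    C.val x (C.dWl (C.Dw K.p l) (C.sl (N + 1)) Vw k s + C.dG K.p l (C.sl (N + 1)) U) := by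
  have := le_G (Vw := Vw) (s := s) h hK l x N k U le_rfl (γ := 0)
    (by rw [zero_mul]; exact dG_nonneg h (ps_p hK) l (sl_nonneg h _) U)
  rw [zero_mul] at this
  exact nonneg_of_mul_nonneg_right this (pow_pos (cw_pos N) 2) |>.trans_eq rfl

theorem E_nonneg : 0 ≤ σ.E :=
  add_nonneg (add_nonneg (σ.P1_nonneg h hK) (σ.P2_nonneg h hK))
    (mul_nonneg (sq_nonneg _) (P_nonneg h hK ..))

theorem E'_nonneg : 0 ≤ σ.E' := mul_nonneg (sq_nonneg _) (P_nonneg h hK ..)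

theorem P1_le : σ.P1 ≤ σ.E := le_add_of_le_of_nonneg (le_add_of_nonneg_right (σ.P2_nonneg h hK))
  (mul_nonneg (sq_nonneg _) (P_nonneg h hK ..))

theorem P2_le : σ.P2 ≤ σ.E := le_add_of_le_of_nonneg (le_add_of_nonneg_left (σ.P1_nonneg h hK))
  (mul_nonneg (sq_nonneg _) (P_nonneg h hK ..))

theorem P3_le : K.de σ.x.1 ^ 2 * σ.P3 ≤ σ.E :=
  le_add_of_nonneg_left (add_nonneg (σ.P1_nonneg h hK) (σ.P2_nonneg h hK))

end Sit

/-- An admissible quantity. -/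
def Tm (q : Sit F F0 K Vw am n → ℝ) : Prop :=
  ∃ B, 0 ≤ B ∧ ∀ k, ∃ B', 0 ≤ B' ∧ ∀ σ : Sit F F0 K Vw am n, σ.k = k → q σ ≤ B * σ.E + B' * σ.E'

/-- An admissible term of a source with the dual weight ω. -/
def Tn (ω : Sit F F0 K Vw am n → ℝ) (f : Sit F F0 K Vw am n → A) : Prop :=
  Tm fun σ => ω σ * C.md σ.x (f σ) ^ 2

variable {q q' ω : Sit F F0 K Vw am n → ℝ} {f g : Sit F F0 K Vw am n → A}

theorem Tm.mono (a : Tm q') (e : ∀ σ, q σ ≤ q' σ) : Tm q := by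
  obtain ⟨B, B0, hB⟩ := a
  refine ⟨B, B0, fun k => ?_⟩
  obtain ⟨B', B1, h'⟩ := hB k
  exact ⟨B', B1, fun σ s => (e σ).trans (h' σ s)⟩

theorem Tm.add (a : Tm q) (b : Tm q') : Tm fun σ => q σ + q' σ := by
  obtain ⟨B, B0, hB⟩ := a
  obtain ⟨D, D0, hD⟩ := b
  refine ⟨B + D, by positivity, fun k => ?_⟩
  obtain ⟨B', B1, hB⟩ := hB k
  obtain ⟨D', D1, hD⟩ := hD k
  exact ⟨B' + D', by positivity, fun σ s => by linarith [hB σ s, hD σ s]⟩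

theorem Tm.smul (a : Tm q) {c : ℝ} (c0 : 0 ≤ c) : Tm fun σ => c * q σ := by
  obtain ⟨B, B0, hB⟩ := a
  refine ⟨c * B, by positivity, fun k => ?_⟩
  obtain ⟨B', B1, hB⟩ := hB k
  exact ⟨c * B', by positivity, fun σ s => (mul_le_mul_of_nonneg_left (hB σ s) c0).trans_eq
    (by ring)⟩

theorem tm_zero : Tm fun _ : Sit F F0 K Vw am n => 0 :=
  ⟨0, le_rfl, fun _ => ⟨0, le_rfl, fun _ _ => by simp⟩⟩

theorem Tm.sum {ι : Type} (S : Finset ι) {q : ι → Sit F F0 K Vw am n → ℝ}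
    (a : ∀ i ∈ S, Tm (q i)) : Tm fun σ => ∑ i ∈ S, q i σ := by
  classical
  induction S using Finset.induction_on with
  | empty => exact tm_zero.mono fun σ => by simp
  | insert i S hi ih =>
    exact ((a i (Finset.mem_insert_self ..)).add (ih fun j e => a j
      (Finset.mem_insert_of_mem e))).mono fun σ => by rw [Finset.sum_insert hi]

theorem Tn.congr (a : Tn ω g) (e : ∀ σ, f σ = g σ) : Tn ω f := Tm.mono a fun σ => by rw [e]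

theorem Tn.neg (a : Tn ω f) : Tn ω fun σ => -f σ := Tm.mono a fun σ => by rw [md_neg]

theorem tn_zero : Tn ω fun _ => 0 := tm_zero.mono fun σ => by simp [md_zero]

variable (ω0 : ∀ σ, 0 ≤ ω σ)
include ω0

theorem Tn.add (a : Tn ω f) (b : Tn ω g) : Tn ω fun σ => f σ + g σ :=
  ((Tm.add a b).smul zero_le_two).mono fun σ => by
    have := pow_le_pow_left₀ (md_nonneg _ _) (md_add σ.x (f σ) (g σ)) 2
    have := mul_le_mul_of_nonneg_left (this.trans (add_sq_le (a := C.md σ.x (f σ))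
      (b := C.md σ.x (g σ)))) (ω0 σ)
    linarith

theorem Tn.sub (a : Tn ω f) (b : Tn ω g) : Tn ω fun σ => f σ - g σ :=
  (a.add ω0 b.neg).congr fun _ => sub_eq_add_neg _ _

theorem Tn.sum {ι : Type} (S : Finset ι) {f : ι → Sit F F0 K Vw am n → A}
    (a : ∀ i ∈ S, Tn ω (f i)) : Tn ω fun σ => ∑ i ∈ S, f i σ := by
  classical
  induction S using Finset.induction_on with
  | empty => exact tn_zero.congr fun σ => by simp
  | insert i S hi ih =>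
    exact ((a i (Finset.mem_insert_self ..)).add ω0 (ih fun j e => a j
      (Finset.mem_insert_of_mem e))).congr fun σ => by rw [Finset.sum_insert hi]

omit ω0 in
theorem Tn.int (a : Tn ω f) (z : ℤ) : Tn ω fun σ => (z : A) * f σ :=
  (Tm.smul a (sq_nonneg (z : ℝ))).mono fun σ => by
    have : C.md σ.x (z : A) = |(z : ℝ)| := by
      rw [Ch.md, Ibp.md, map_intCast, Complex.norm_intCast]
    rw [md_mul, this, mul_pow, sq_abs]
    exact le_of_eq (by ring)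

variable (h : C.Is) (hK : K.Is) (w : Fin s → Lt) {c : Fin 5}
include h hK

/-- The terms of higher rank or lower order. -/
theorem tn_hi (hω : ∀ σ, ω σ * σ.ρ ^ 2 ≤ 4 ^ 10 * σ.dw c) {B : ℝ}
    (hf : ∀ σ Y, 0 ≤ Y → Hi σ.I (C.Vs Vw σ.k s w c) σ.x Y → C.md σ.x (f σ) ≤ B * (σ.ρ * Y)) :
    Tn ω f := by
  refine ⟨B ^ 2 * 4 ^ 10, by positivity, fun _ => ⟨0, le_rfl, fun σ _ => ?_⟩⟩
  have k := hf σ _ (Real.sqrt_nonneg _) (hi_sqrt h σ.I _ σ.x)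
  have y := add_nonneg (sw_nonneg (x := σ.x) h n (Ch.om σ.I + 1) (C.Vs Vw σ.k s w c))
    (sl_nonneg (x := σ.x) h n (C.Vs Vw σ.k s w c))
  have k2 := mul_le_mul_of_nonneg_left (pow_le_pow_left₀ (md_nonneg _ _) k 2) (ω0 σ)
  rw [mul_pow, mul_pow, σ.len, Real.sq_sqrt y] at k2
  have k3 := mul_le_mul_of_nonneg_left (mul_le_mul_of_nonneg_right (hω σ) y) (sq_nonneg B)
  have k4 := mul_le_mul_of_nonneg_left ((σ.le_P2 h hK w c).trans (σ.P2_le h hK))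
    (show 0 ≤ B ^ 2 * 4 ^ 10 by positivity)
  change ω σ * _ ≤ _
  linarith

variable {Φ : List (Fin 5) → A → A → A} (o : Op C Φ)
include o

/-- The small linear terms. -/
theorem tn_lin (hω : ∀ σ, ω σ * σ.ρ ^ 2 ≤ 4 ^ 10 * σ.dw c) {a : A} (ha : C.Sy 2 a) :
    Tn ω fun σ => Φ σ.J a (C.Vs Vw 0 s w c) := by
  obtain ⟨B, B0, hB⟩ := o.bd n
  obtain ⟨L, L0, hL⟩ := P354YF.sy_pos h ha n
  refine ⟨(B * L) ^ 2 * 4 ^ 10 * cw n ^ 2, by positivity, fun _ => ⟨0, le_rfl, fun σ _ => ?_⟩⟩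
  have k := hB σ.I a (C.Vs Vw σ.k s w c) σ.x _ σ.len (bs_top _ _ _ _)
  have r : C.rr σ.x ^ (-2 : ℝ) = σ.ρ ^ 2 := by
    rw [Real.rpow_neg (rr_pos h σ.x).le, Real.rpow_two, Sit.ρ, inv_pow]
  have k1 := k.trans (mul_le_mul_of_nonneg_left (mul_le_mul_of_nonneg_right (hL σ.x)
    (jet_nonneg _ _)) B0)
  rw [r] at k1
  have k2 := mul_le_mul_of_nonneg_left (pow_le_pow_left₀ (md_nonneg _ _) k1 2) (ω0 σ)
  have k3 := mul_le_mul_of_nonneg_left (mul_le_mul (mul_le_mul_of_nonneg_right (hω σ)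
    (sq_nonneg (C.jet n (C.Vs Vw σ.k s w c) σ.x))) (rr_de h hK σ.x) (sq_nonneg _)
    (mul_nonneg (mul_nonneg (by norm_num) (σ.dw_pos h hK c).le) (sq_nonneg _)))
    (sq_nonneg (B * L))
  have k4 := mul_le_mul_of_nonneg_left (Sit.le_V (Vw := Vw) h hK σ.l σ.x n σ.k
    ((F.df F0 C).map (C.T)^[σ.k]) w c) (show 0 ≤ (B * L) ^ 2 * 4 ^ 10 * K.de σ.x.1 ^ 2 by
      positivity)
  have k5 := mul_le_mul_of_nonneg_left (σ.P3_le h hK)
    (show 0 ≤ (B * L) ^ 2 * 4 ^ 10 * cw n ^ 2 by positivity)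
  change ω σ * C.md σ.x (Φ (List.replicate σ.k 0 ++ σ.I) a _) ^ 2 ≤ _
  rw [o.tc _ _ _ _ ha.1]
  simp only [Sit.P3, Sit.dw, Sit.ρ] at k2 k3 k4 k5
  change ω σ * C.md σ.x (Φ σ.I a (C.Vs Vw σ.k s w c)) ^ 2 ≤ _
  linarith

/-- The quadratic terms; S bounds the low jets of γ, Z is its weight. -/
theorem tn_quad {γ : A} {S Z : Sit F F0 K Vw am n → ℝ}
    (hω : ∀ σ, ω σ * S σ ^ 2 ≤ 4 ^ 10 * σ.dw c)
    (hγ : ∀ σ, C.jet (n + σ.k) γ σ.x ≤ K.ep σ.x.1 * S σ ∨ (σ.m < n + σ.k ∧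
      C.jet σ.m γ σ.x ≤ K.ep σ.x.1 * S σ ∧ Z σ * C.jet (n + σ.k) γ σ.x ^ 2 ≤
        cw (n + σ.k) ^ 2 * σ.P4 ∧ (σ.l = 1 / 100 → ω σ ≤ 4 ^ 10 * K.pm σ.x.1 ^ 2 *
          (Z σ * (C.rr σ.x * C.at' (C.mon 0 0 (-3 / 10)) σ.x) * C.at' (C.Dw 1 0 c) σ.x)) ∧
            0 ≤ Z σ)) :
    Tn ω fun σ => Φ σ.J γ (C.Vs Vw 0 s w c) := by
  refine ⟨0, le_rfl, fun k => ?_⟩
  obtain ⟨B, B0, hB⟩ := o.bd (n + k)
  refine ⟨B ^ 2 * (4 * 4 ^ 10 * cw (n + k) ^ 2), by positivity, ?_⟩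
  rintro σ rfl
  set V := C.Vs Vw 0 s w c
  set e := K.ep σ.x.1
  set P := K.pm σ.x.1
  have P4 : 0 ≤ σ.P4 := Sit.P_nonneg h hK ..
  set Q := 4 ^ 10 * cw (n + σ.k) ^ 2 * ((e * P) ^ 2 * σ.P4) with hQ
  have Q0 : 0 ≤ Q := by positivity
  have lo : ∀ m, C.jet m γ σ.x ≤ e * S σ →
      ω σ * (C.jet m γ σ.x * C.jet (n + σ.k) V σ.x) ^ 2 ≤ Q := fun m a => by
    have k1 := mul_le_mul_of_nonneg_left (mul_le_mul_of_nonneg_right (pow_le_pow_left₀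
      (jet_nonneg _ _) a 2) (sq_nonneg (C.jet (n + σ.k) V σ.x))) (ω0 σ)
    have k2 := mul_le_mul_of_nonneg_left (mul_le_mul_of_nonneg_right (hω σ)
      (sq_nonneg (C.jet (n + σ.k) V σ.x))) (sq_nonneg e)
    have k3 := mul_le_mul_of_nonneg_left
      (Sit.le_V (Vw := Vw) h hK σ.l σ.x (n + σ.k) 0 (F.df F0 C) w c) (show 0 ≤ e ^ 2 * 4 ^ 10 by positivity)
    have k4 := mul_le_mul_of_nonneg_left (one_le_pow₀ (n := 2) (pm_one h hK σ.x))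
      (show 0 ≤ 4 ^ 10 * cw (n + σ.k) ^ 2 * e ^ 2 * σ.P4 by positivity)
    simp only [Sit.P4, Sit.dw] at k2 k4 hQ
    linarith
  have fin : ∀ y, Bs γ V σ.x (n + σ.k) y → ω σ * y ^ 2 ≤ 4 * Q → ω σ * C.md σ.x (Φ σ.J γ V) ^ 2 ≤
      0 * σ.E + B ^ 2 * (4 * 4 ^ 10 * cw (n + σ.k) ^ 2) * σ.E' := fun y b a => by
    have k1 := mul_le_mul_of_nonneg_left (pow_le_pow_left₀ (md_nonneg _ _)
      (hB σ.J γ V σ.x y σ.J_len b) 2) (ω0 σ)
    have k2 := mul_le_mul_of_nonneg_left a (sq_nonneg B)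
    simp only [Sit.E']
    linarith
  rcases hγ σ with a | ⟨a, b, d, e', Z0⟩
  · exact fin _ (bs_top _ _ _ _) (by linarith [lo _ a])
  obtain ⟨r1, r2, -, -, r3⟩ := σ.rg
  obtain ⟨r0, r1⟩ := r1.resolve_left fun z => absurd z.2 (by omega)
  refine fin _ (bs_split γ V σ.x (m := σ.m) (m' := n + σ.k - σ.m) (by omega)) ?_
  have t := tabV_le h σ.x (σ.tw (n + σ.k - σ.m) (List.ofFn w) (by omega)
    (by rw [List.length_ofFn]; omega)) c
  have k1 := mul_le_mul_of_nonneg_right (e' r0) (sq_nonneg (C.jet (n + σ.k) γ σ.x *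
    C.jet (n + σ.k - σ.m) V σ.x))
  have k2 := mul_le_mul_of_nonneg_left (mul_le_mul d t (mul_nonneg (mul_nonneg (mul_nonneg
    (rr_pos h _).le ((ps_mon h ..).at h _).le) ((ps_Dw h ps_one 0 c).at h _).le) (sq_nonneg _))
    (by positivity))
    (show 0 ≤ 4 ^ 10 * P ^ 2 by positivity)
  have k3 := mul_le_mul_of_nonneg_left (add_sq_le (a := C.jet σ.m γ σ.x * C.jet (n + σ.k) V σ.x)
    (b := C.jet (n + σ.k) γ σ.x * C.jet (n + σ.k - σ.m) V σ.x)) (ω0 σ)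
  have k4 := lo _ b
  change 4 ^ 10 * P ^ 2 * (_ * (_ * C.jet _ V σ.x ^ 2)) ≤ 4 ^ 10 * P ^ 2 * (_ * e ^ 2) at k2
  linarith

end Vale.Agent.P354YS
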