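import Vale.Agent.P354FX.Defs
import Vale.Agent.P354FA.Bs
import Vale.Agent.P354YF.Cl

/-!
The jets of the far family along the letters of the chart, on bounded radii.
-/

noncomputable section

namespace Vale.Agent.P354YS

open Vale.Agent.P354XG (Der D_mul D_add D_sub D_zero)
open Vale.Agent.P354XZ hiding Lt
open Vale.Agent.P354YF
open Vale.Agent.P354FA (Lt Gn Eh Gh Jh Ah VN Vw gm Mx wc wt sh bw)

variable {A : Type} [CommRing A] [Algebra ℂ A] {C : Ch A}

/-- The jet of order m is bounded by a multiple of τ. -/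
def Cj {S : Type} (p : S → C.Pt) (τ : S → ℝ) (m : ℕ) (f : A) : Prop :=
  ∃ B, 0 ≤ B ∧ ∀ σ, C.jet m f (p σ) ≤ B * τ σ

section
variable {S : Type} {p : S → C.Pt} {τ τ' : S → ℝ} {m : ℕ} {f g : A}

theorem Cj.zero : Cj p τ m 0 := ⟨0, le_rfl, fun _ => by rw [jet_null, zero_mul]⟩

theorem Cj.add (a : Cj p τ m f) (b : Cj p τ m g) : Cj p τ m (f + g) := by
  obtain ⟨B, B0, hB⟩ := a
  obtain ⟨D, D0, hD⟩ := b
  exact ⟨B + D, add_nonneg B0 D0, fun σ => (jet_add ..).trans (by linarith [hB σ, hD σ])⟩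

theorem Cj.neg (a : Cj p τ m f) : Cj p τ m (-f) := by simpa only [Cj, jet_neg] using a

theorem Cj.sub (a : Cj p τ m f) (b : Cj p τ m g) : Cj p τ m (f - g) := by
  rw [sub_eq_add_neg]; exact a.add b.neg

theorem Cj.sum {ι : Type} [Fintype ι] {f : ι → A} (a : ∀ i, Cj p τ m (f i)) :
    Cj p τ m (∑ i, f i) := Finset.sum_induction f _ (fun _ _ => Cj.add) Cj.zero fun i _ => a i

theorem Cj.mul (a : Cj p 1 m f) (b : Cj p τ m g) : Cj p τ m (f * g) := by
  obtain ⟨B, B0, hB⟩ := a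
  obtain ⟨D, D0, hD⟩ := b
  refine ⟨2 ^ m * B * D, by positivity, fun σ => (jet_mul_le ..).trans ?_⟩
  have := mul_le_mul (hB σ) (hD σ) (jet0 ..) ((jet0 ..).trans (hB σ))
  rw [Pi.one_apply, mul_one] at this
  exact (mul_le_mul_of_nonneg_left this (by positivity)).trans_eq (by ring)

theorem Cj.mono (a : Cj p τ m f) (e : ∀ σ, τ σ ≤ τ' σ) : Cj p τ' m f := by
  obtain ⟨B, B0, hB⟩ := a
  exact ⟨B, B0, fun σ => (hB σ).trans (mul_le_mul_of_nonneg_left (e σ) B0)⟩

theorem Cj.low {m' : ℕ} (a : Cj p τ m f) (e : m' ≤ m) : Cj p τ m' f := by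
  obtain ⟨B, B0, hB⟩ := a
  exact ⟨B, B0, fun σ => (jet_mono e f).trans (hB σ)⟩

theorem Cj.der (a : Cj p τ (m + 1) f) (i : Fin 5) : Cj p τ m (C.X i f) := by
  obtain ⟨B, B0, hB⟩ := a
  exact ⟨B, B0, fun σ => (jet_der m i f).trans (hB σ)⟩

theorem Cj.succ (a : Cj p τ m f) (b : ∀ i, Cj p τ m (C.X i f)) : Cj p τ (m + 1) f := by
  obtain ⟨B, B0, hB⟩ := a
  choose D D0 hD using b
  refine ⟨B + ∑ i, D i, add_nonneg B0 (Finset.sum_nonneg fun i _ => D0 i), fun σ => ?_⟩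
  rw [jet_succ, add_mul, Finset.sum_mul]
  exact add_le_add ((md_le_jet m f).trans (hB σ)) (Finset.sum_le_sum fun i _ => hD i σ)

theorem Cj.of (a : Cj p τ m f) (e : g = f) : Cj p τ m g := e ▸ a

/-- Division. -/
theorem Cj.div {D : A} {κ : ℝ} (κ0 : 0 ≤ κ) (hκ : ∀ σ, 1 ≤ κ * C.md (p σ) D) (hD : Cj p 1 m D)
    (a : Cj p τ m (D * f)) : Cj p τ m f := by
  induction m generalizing f with
  | zero =>
    obtain ⟨B, B0, hB⟩ := a
    refine ⟨κ * B, mul_nonneg κ0 B0, fun σ => ?_⟩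
    have := mul_le_mul_of_nonneg_left (hB σ) κ0
    rw [jet_zero, md_mul] at this
    rw [jet_zero]
    nlinarith [mul_le_mul_of_nonneg_right (hκ σ) (md0 (x := p σ) f)]
  | succ m ih =>
    have b := ih (hD.low m.le_succ) (a.low m.le_succ)
    exact b.succ fun i => ih (hD.low m.le_succ)
      (((a.der i).sub ((hD.der i).mul b)).of (by rw [D_mul]; ring))

variable (h : C.Is)
include h

theorem Cj.c (a : Cj p τ m f) : Cj p τ m (C.c f) := by simpa only [Cj, jet_c h] using a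

theorem Cj.cb (a : Cj p τ m f) (b : Bool) : Cj p τ m (C.cb b f) := by
  cases b
  exacts [a, a.c h]

theorem cj_sy {a : ℝ} (s : C.Sy a f) (e : 0 ≤ a) : Cj p 1 m f := by
  obtain ⟨K, K0, hK⟩ := sy_pos h (sy_mono h e s) m
  exact ⟨K, K0, fun σ => by simpa using hK (p σ)⟩

theorem Cj.int (a : Cj p τ m f) (z : ℤ) : Cj p τ m (z * f) :=
  (cj_sy h (P354FA.sy_int h z) le_rfl).mul a

theorem sy_D (s : C.Sy 0 f) (i : Fin 5) : C.Sy 0 (C.D i f) := by
  fin_cases i
  exacts [(show C.T f = 0 from s.1) ▸ sy_zero, sy_mono h (by norm_num) (sy_R h s), sy_an h 0 s,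
    sy_an h 1 s, sy_an h 2 s]

end

/-- The determinant of the components T, P, Q. -/
def De (n m b : Fin 5 → A) : A :=
  n 0 * (m 2 * b 3 - m 3 * b 2) - n 2 * (m 0 * b 3 - m 3 * b 0) + n 3 * (m 0 * b 2 - m 2 * b 0)

theorem le_mul {x : C.Pt} {f g : A} {a b : ℝ} (s : C.md x f ≤ a) (t : C.md x g ≤ b) :
    C.md x (f * g) ≤ a * b := by rw [md_mul]; exact mul_le_mul s t (md0 _) ((md0 _).trans s)
theorem le_add {x : C.Pt} {f g : A} {a b : ℝ} (s : C.md x f ≤ a) (t : C.md x g ≤ b) :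
    C.md x (f + g) ≤ a + b := (md_add ..).trans (add_le_add s t)
theorem le_sub {x : C.Pt} {f g : A} {a b : ℝ} (s : C.md x f ≤ a) (t : C.md x g ≤ b) :
    C.md x (f - g) ≤ a + b := by
  rw [sub_eq_add_neg]; exact le_add s ((md_neg g).trans_le t)

theorem De_ge (h : C.Is) (x : C.Pt) {n m : Fin 5 → A} (e0 : C.md x (n 0 - 2) ≤ 1 / 10)
    (e1 : C.md x (C.r * m 3 - 1) ≤ 1 / 10) (e2 : C.md x (C.r * m 2) ≤ 1 / 10)
    (e3 : C.md x (C.r * n 2) ≤ 1 / 10) (e4 : C.md x (C.r * n 3) ≤ 1 / 10)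
    (e5 : C.md x (m 0) ≤ 1 / 10) : 1 ≤ C.rr x ^ 2 * C.md x (De n m (C.cj m)) := by
  have f1 := (md_c h _).trans_le e1
  have f2 := (md_c h _).trans_le e2
  have f5 := (md_c h _).trans_le e5
  have o : C.md x 1 ≤ 1 := md_one.le
  have t : C.md x (1 + 1) = 2 := by
    rw [Ch.md, P354XI.Ibp.md, one_add_one_eq_two, map_ofNat]; simp
  have a := le_add t.le e0
  have k := le_add (le_sub (le_sub (le_mul a (le_sub (le_mul e2 f2) (le_add (le_add e1 f1)
    (le_mul e1 f1)))) e0) (le_mul e3 (le_sub (le_mul e5 f2) (le_mul (le_add o e1) f5))))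
    (le_mul e4 (le_sub (le_mul e5 (le_add o f1)) (le_mul e2 f5)))
  have k2 := le_sub k (le_refl (C.md x (C.r * C.r * De n m (C.cj m))))
  rw [show _ - C.r * C.r * De n m (C.cj m) = 1 + 1 by
    simp only [De, Ch.cj, map_sub, map_mul, map_one, h.c_r, Matrix.cons_val]; ring, t, md_mul,
    md_mul, md_r h] at k2
  linarith

theorem sy_small (h : C.Is) {ι : Type} [Fintype ι] {f : ι → A} (s : ∀ i, C.Sy 1 (f i)) :
    ∃ c > 0, ∀ x : C.Pt, C.R0 x.1 ^ (-1 / 10 : ℝ) ≤ c → ∀ i, C.md x (f i) ≤ 1 / 20 := by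
  choose K K0 hK using fun i => sy_pos h (s i) 0
  have p : 0 ≤ ∑ i, K i := Finset.sum_nonneg fun i _ => K0 i
  refine ⟨1 / (20 * (∑ i, K i + 1)), by positivity, fun x e i => ?_⟩
  have k := hK i x
  have r := (rr_le_R0 h (s := -1) (by norm_num) x).trans ((Real.rpow_le_rpow_of_exponent_le
    (h.one_le x.1).1 (show (-1 : ℝ) ≤ -1 / 10 by norm_num)).trans e)
  have q := Finset.single_le_sum (fun i _ => K0 i) (Finset.mem_univ i)
  rw [jet_zero] at k
  refine k.trans ((mul_le_mul (q.trans (le_add_of_nonneg_right zero_le_one)) r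
    (Real.rpow_nonneg (rr_pos h x).le _) (by positivity)).trans_eq ?_)
  field_simp

variable {F F0 : NF A} {t : Fin 4 → A} (a : F.Ga F0 C t) (j : C.J) {S : Type} {p : S → C.Pt}
  {d τ : S → ℝ} {m : ℕ} (hr : Cj p 1 m C.r) (hg : ∀ g, Cj p d m ((F.df F0 C).at g))
  (ha : Cj p d m F.al) (d1 : ∀ σ, d σ ≤ 1) (dτ : ∀ σ, d σ ≤ τ σ)
include a hr hg

theorem cj_n (i : Fin 5) : Cj p d m (F.nc i - F0.nc i) := by
  fin_cases i
  exacts [hg (.inl 2), (hr.mul (hg (.inl 3))).of (by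
    change F.nc 1 - F0.nc 1 = C.r * (C.ri * F.nc 1 - C.ri * F0.nc 1)
    linear_combination -(F.nc 1 - F0.nc 1) * a.ch.hr), hg (.inl 4), hg (.inl 5), hg (.inl 6)]

include ha

theorem cj_m (i : Fin 5) : Cj p d m (F.mc i - F0.mc i) := by
  fin_cases i
  exacts [((hg (.inr (.inl 4))).add ha).of (by
    change F.mc 0 - F0.mc 0 = F.mc 0 - F.al - (F0.mc 0 - F0.al) + F.al
    rw [a.rf.al]; ring), (hr.mul (hg (.inr (.inl 5)))).of (by
    change F.mc 1 - F0.mc 1 = C.r * (C.ri * F.mc 1 - C.ri * F0.mc 1)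
    linear_combination -(F.mc 1 - F0.mc 1) * a.ch.hr), hg (.inr (.inl 6)), hg (.inr (.inl 7)),
    hg (.inr (.inl 8))]

theorem cj_b (i : Fin 5) : Cj p d m (C.cj F.mc i - C.cj F0.mc i) := by
  have k := fun i => ((cj_m a hr hg ha i).c a.ch).of (map_sub C.c _ _).symm
  fin_cases i
  exacts [k 0, k 1, k 3, k 2, (k 4).neg.of (by
    change -C.c (F.mc 4) - -C.c (F0.mc 4) = _
    ring)]

include j d1

theorem cj_fr : (∀ i, Cj p 1 m (F.nc i)) ∧ (∀ i, Cj p 1 m (F.mc i)) ∧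
    ∀ i, Cj p 1 m (C.cj F.mc i) := by
  have h := a.ch
  have s := sb h j a.rf
  have k : ∀ {f f0 : A}, Cj p d m (f - f0) → Cj p 1 m f0 → Cj p 1 m f := fun b c =>
    ((b.mono d1).add c).of (sub_add_cancel _ _).symm
  have o : Cj p 1 m (1 : A) := cj_sy h (sy_one h) le_rfl
  refine ⟨fun i => k (cj_n a hr hg i) ?_, fun i => k (cj_m a hr hg ha i)
    (cj_sy h (s.m i) zero_le_one), fun i => k (cj_b a hr hg ha i) ?_⟩
  · fin_cases i
    exacts [((cj_sy h a.rf.n0 zero_le_two).add (o.add o)).of (by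
      change F0.nc 0 = _
      ring), ((cj_sy h a.rf.n1 zero_le_one).sub o).of (add_sub_cancel_right _ _).symm,
      cj_sy h a.rf.na.1 zero_le_two, cj_sy h a.rf.na.2.1 zero_le_two,
      cj_sy h a.rf.na.2.2 zero_le_two]
  · have q := fun i => cj_sy (p := p) (m := m) h (s.cm i) zero_le_one
    fin_cases i
    exacts [q 0, q 1, q 3, q 2, (q 4).neg]

variable {w : List Lt} {k : ℕ} (hk : k ≤ 4)
  (hw : ∀ v i, List.length v = w.length → i ≤ 4 → Cj p τ m (VN C F F0 false v i))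
include hk hw

omit j hr hg ha d1 in
theorem cj_Ah (g : Gn) : Cj p τ m (Ah C F g false w k - Ah C F0 g false w k) := by
  have e := P354FA.Ah_eq C F g false k w.get
  have e0 := P354FA.Ah_eq C F0 g false k w.get
  rw [List.ofFn_get] at e e0
  have b : Cj p τ m (wc g false k * VN C F F0 false w (wt g k)) := by
    by_cases z : wc g false k = 0
    · rw [z, Int.cast_zero, zero_mul]; exact .zero
    · exact (hw w _ rfl (by cases g <;> simp [wc, wt] at z ⊢ <;> omega)).int a.ch _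
  refine (b.add (Cj.sum fun v : Fin w.length → Lt => (hw _ k (List.length_ofFn (f := v)) hk).int
    a.ch (Mx g w (List.ofFn v)))).of ?_
  simp only [e, e0, VN, mul_sub, Finset.sum_sub_distrib]
  ring

omit j hr hg ha d1 in
theorem cj_V : Cj p τ m (C.an 2 (VN C F F0 false w k)) := by
  have e : ∀ N : NF A, N.Is C → C.an 2 (Jh C N false w k) =
      Ah C N .H false w k - Ah C N .Hb false w k := fun N hN => by
    rw [Jh, D_mul, P354FA.D_nz (D := C.an 2) (a.ch.D_N 4), ← hN.HV, ← P354FA.ev_X,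
      P354FA.H_ev hN.is, P354FA.Hb_ev hN.is]
    simp only [Ah, sh, add_zero]
    ring
  exact ((cj_Ah a hk hw .H).sub (cj_Ah a hk hw .Hb)).of (by
    rw [VN, D_sub, e F a.is, e F0 a.rf.is]; ring)

include dτ

theorem cj_Eh (x : Lt) (hx : Cj p τ m (VN C F F0 false (x :: w) k)) :
    Cj p τ m (Eh C F x (VN C F F0 false w k)) := by
  have h := a.ch
  have J0 : ∀ v i, C.Sy 0 (Jh C F0 false v i) := fun v i =>
    sy_mono h (by positivity) (P354FA.sy_Jh h a.rf j false v i)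
  have pr : ∀ {f f0 g g0 : A}, Cj p d m (f - f0) → C.Sy 1 f0 → Cj p τ m (g - g0) → C.Sy 0 g0 →
      Cj p τ m (f * g - f0 * g0) := fun b c e s => (((((b.mono d1).add
    (cj_sy h c zero_le_one)).mul e)).add ((cj_sy h s le_rfl).mul (b.mono dτ))).of (by ring)
  have G : ∀ g, sh g ≠ 0 → Cj p τ m (Gh C F x g * Ah C F g false w k -
      Gh C F0 x g * Ah C F0 g false w k) := fun g s => by
    refine pr ?_ (P354FA.sy_Gh1 h a.rf j x g) (cj_Ah a hk hw g) ?_
    · by_cases z : x = (false, false)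
      · rw [z, P354FA.Gh_l a]; exact .zero
      · rw [P354FA.Gh_df a z s]; exact (hg _).cb h _
    · have e0 := P354FA.Ah_eq C F0 g false k w.get
      rw [List.ofFn_get] at e0
      rw [e0]
      exact sy_add (P354FA.sy_zmul h _ (J0 ..)) (sy_sum _ fun _ _ => P354FA.sy_zmul h _ (J0 ..))
  have M : Cj p d m (gm C F x - gm C F0 x) := by
    match x with
    | (false, false) => exact Cj.zero.of (sub_self _)
    | (true, true) => exact hg (.inl 0)
    | (false, true) => exact hg (.inr (.inl 3))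
    | (true, false) => exact ((hg (.inr (.inl 3))).c h).of (map_sub C.c _ _).symm
  have vf : ∀ {q q0 : Fin 5 → A}, (∀ i, Cj p d m (q i - q0 i)) →
      Cj p τ m (C.vf q (Jh C F0 false w k) - C.vf q0 (Jh C F0 false w k)) := fun b =>
    (Cj.sum fun i => (cj_sy h (sy_D h (J0 w k) i) le_rfl).mul ((b i).mono dτ)).of (by
      simp only [vf_ap, Fin.sum_univ_five, Ch.D, Matrix.cons_val]; ring)
  have E : Cj p τ m (Eh C F x (Jh C F0 false w k) - Eh C F0 x (Jh C F0 false w k)) := by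
    match x with
    | (false, false) => exact Cj.zero.of (sub_self _)
    | (true, true) => exact vf (cj_n a hr hg)
    | (false, true) => exact vf (cj_m a hr hg ha)
    | (true, false) => exact vf (cj_b a hr hg ha)
  refine (((hx.sub ((((G .F (by decide)).add (G .E (by decide))).add (G .Fb (by decide))).add
    (G .Eb (by decide)))).sub ((pr M (sy_mono h one_le_two (P354FA.sy_gm h a.rf j x))
    (hw w k rfl hk) (J0 w k)).int h (bw w k))).sub E).of ?_
  rw [VN, VN, D_sub]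
  linear_combination P354FA.hat h a.is j x false w k - P354FA.hat h a.rf.is j x false w k

theorem cj_step (om : P354FX.OmA C) {κ : ℝ} (κ0 : 0 ≤ κ)
    (hκ : ∀ σ, 1 ≤ κ * C.md (p σ) (De F.nc F.mc (C.cj F.mc)))
    (hx : ∀ x, Cj p τ m (VN C F F0 false (x :: w) k)) :
    Cj p τ (m + 1) (VN C F F0 false w k) := by
  have h := a.ch
  obtain ⟨n, u, b⟩ := cj_fr a j hr hg ha d1
  have E := fun x => cj_Eh a j hr hg ha d1 dτ hk hw x (hx x)
  have R : Cj p τ m (C.R (VN C F F0 false w k)) := E (false, false)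
  have V := cj_V a hk hw
  have e : ∀ {q : Fin 5 → A}, (∀ i, Cj p 1 m (q i)) → Cj p τ m (C.vf q (VN C F F0 false w k)) →
      Cj p τ m (q 0 * C.T (VN C F F0 false w k) + q 2 * C.an 0 (VN C F F0 false w k) +
        q 3 * C.an 1 (VN C F F0 false w k)) := fun s t =>
    ((t.sub ((s 1).mul R)).sub ((s 4).mul V)).of (by rw [vf_ap]; ring)
  have e1 := e n (E (true, true))
  have e2 := e u (E (false, true))
  have e3 := e b (E (true, false))
  have mi : ∀ {q q' : Fin 5 → A}, (∀ i, Cj p 1 m (q i)) → (∀ i, Cj p 1 m (q' i)) → ∀ i i',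
      Cj p 1 m (q i * q' i' - q i' * q' i) := fun s t i i' =>
    ((s i).mul (t i')).sub ((s i').mul (t i))
  have D : Cj p 1 m (De F.nc F.mc (C.cj F.mc)) :=
    (((n 0).mul (mi u b 2 3)).sub ((n 2).mul (mi u b 0 3))).add ((n 3).mul (mi u b 0 2))
  have T : Cj p τ m (C.T (VN C F F0 false w k)) := Cj.div κ0 hκ D (((((mi u b 2 3).mul e1).sub
    ((mi n b 2 3).mul e2)).add ((mi n u 2 3).mul e3)).of (by rw [De]; ring))
  have P : Cj p τ m (C.an 0 (VN C F F0 false w k)) := Cj.div κ0 hκ D (((((mi n b 0 3).mul e2).sub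
    ((mi u b 0 3).mul e1)).sub ((mi n u 0 3).mul e3)).of (by rw [De]; ring))
  have Q : Cj p τ m (C.an 1 (VN C F F0 false w k)) := Cj.div κ0 hκ D (((((mi u b 0 2).mul e1).sub
    ((mi n b 0 2).mul e2)).add ((mi n u 0 2).mul e3)).of (by rw [De]; ring))
  obtain ⟨ν, hν, eν⟩ := om
  have O : ∀ i, Cj p τ m (C.Om i (VN C F F0 false w k)) := fun i => by
    rw [eν]
    refine Cj.sum fun c => (cj_sy h (hν i c) le_rfl).mul ?_
    fin_cases c
    exacts [P, Q, V]
  refine (hw w k rfl hk).succ fun i => ?_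
  fin_cases i
  exacts [T, hr.mul R, O 0, O 1, O 2]

end Vale.Agent.P354YS
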