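import Vale.Agent.P354YS.Tube

/-!
The jets of the far family along the letters of the chart, on bounded radii: the theorem.
-/

noncomputable section

namespace Vale.Agent.P354YS

open Vale.Agent.P354XZ hiding Lt
open Vale.Agent.P354YF
open Vale.Agent.P354FA (Lt VN Vw)

variable {A : Type} [CommRing A] [Algebra ℂ A] {C : Ch A}

/-- The data at one point. -/
structure Sq (C : Ch A) (F F0 : NF A) (c0 ρ : ℝ) (n s : ℕ) where
  x : C.Pt
  d : ℝ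
  y : ℝ
  e1 : C.R0 x.1 ^ (-1 / 10 : ℝ) ≤ c0
  e2 : C.rr x ≤ ρ
  e3 : d ≤ 1 / (20 * (|ρ| + 2))
  e4 : ∀ g : Gi, C.jet n ((F.df F0 C).at g) x ≤ d
  e5 : C.jet n F.al x ≤ d
  e6 : ∀ (w : List Lt) k, w.length ≤ n + s → C.md x (Vw F F0 C w k) ≤ y

variable {F F0 : NF A} {t : Fin 4 → A} {c0 ρ : ℝ} {n s : ℕ}

theorem Sq.d0 (σ : Sq C F F0 c0 ρ n s) : 0 ≤ σ.d := (jet0 ..).trans σ.e5
theorem Sq.y0 (σ : Sq C F F0 c0 ρ n s) : 0 ≤ σ.y := (md0 _).trans (σ.e6 [] 0 (Nat.zero_le _))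
theorem Sq.dd (σ : Sq C F F0 c0 ρ n s) : (|ρ| + 2) * σ.d ≤ 1 / 20 :=
  (mul_le_mul_of_nonneg_left σ.e3 (by positivity)).trans_eq (by field_simp)

variable (a : F.Ga F0 C t) (hc : ∀ x : C.Pt, C.R0 x.1 ^ (-1 / 10 : ℝ) ≤ c0 → ∀ i,
  C.md x (![F0.nc 0 - 2, C.r * (F0.mc 3 - C.ri), C.r * F0.mc 2, C.r * F0.nc 2, C.r * F0.nc 3,
    F0.mc 0] i) ≤ 1 / 20)
include a hc

theorem Sq.de (σ : Sq C F F0 c0 ρ n s) :
    1 ≤ ρ ^ 2 * C.md σ.x (De F.nc F.mc (C.cj F.mc)) := by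
  have h := a.ch
  have z := hc _ σ.e1
  have g := fun g => (md_le_jet n _).trans (σ.e4 g)
  have r := (md_r h).trans_le (σ.e2.trans (le_abs_self ρ))
  have q := mul_nonneg (abs_nonneg ρ) σ.d0
  have d0 := σ.d0
  have dd := σ.dd
  have u : ∀ {f f' : A} {y : ℝ}, C.md σ.x f ≤ y → f' = f → y ≤ 1 / 10 →
      C.md σ.x f' ≤ 1 / 10 := fun b e c => e ▸ b.trans c
  refine (De_ge h σ.x ?_ ?_ ?_ ?_ ?_ ?_).trans (mul_le_mul_of_nonneg_right
    (pow_le_pow_left₀ (rr_pos h _).le σ.e2 2) (md0 _))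
  · refine u (le_add (z 0) (g (.inl 2))) ?_ (by linarith)
    change _ = F0.nc 0 - 2 + (F.nc 0 - F0.nc 0); ring
  · refine u (le_add (z 1) (le_mul r (g (.inr (.inl 7))))) ?_ (by linarith)
    change _ = C.r * (F0.mc 3 - C.ri) + C.r * (F.mc 3 - F0.mc 3); linear_combination h.hr
  · refine u (le_add (z 2) (le_mul r (g (.inr (.inl 6))))) ?_ (by linarith)
    change _ = C.r * F0.mc 2 + C.r * (F.mc 2 - F0.mc 2); ring
  · refine u (le_add (z 3) (le_mul r (g (.inl 4)))) ?_ (by linarith)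
    change _ = C.r * F0.nc 2 + C.r * (F.nc 2 - F0.nc 2); ring
  · refine u (le_add (z 4) (le_mul r (g (.inl 5)))) ?_ (by linarith)
    change _ = C.r * F0.nc 3 + C.r * (F.nc 3 - F0.nc 3); ring
  · refine u (le_add (z 5) (le_add (g (.inr (.inl 4))) ((md_le_jet n _).trans σ.e5))) ?_
      (by linarith)
    change _ = F0.mc 0 + (F.mc 0 - F.al - (F0.mc 0 - F0.al) + F.al); rw [a.rf.al]; ring

theorem Sq.key (om : P354FX.OmA C) (m : ℕ) (e : m ≤ n) (w : List Lt) (k : ℕ)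
    (e' : w.length + m ≤ n + s) (hk : k ≤ 4) : Cj (fun σ : Sq C F F0 c0 ρ n s => σ.x)
      (fun σ => σ.y + σ.d) m (VN C F F0 false w k) := by
  induction m generalizing w k with
  | zero =>
    exact ⟨1, zero_le_one, fun σ => by
      rw [jet_zero, one_mul]
      exact le_add_of_le_of_nonneg (σ.e6 w ⟨k, by omega⟩ e') σ.d0⟩
  | succ m ih =>
    by_cases j : Nonempty C.J
    swap
    · exact ⟨0, le_rfl, fun σ => absurd ⟨σ.x.1⟩ j⟩
    obtain ⟨K, K0, hK⟩ := sy_pos a.ch (sy_r a.ch) m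
    have e1 : m ≤ n := by omega
    have hr : Cj (fun σ : Sq C F F0 c0 ρ n s => σ.x) 1 m C.r :=
      ⟨K * |ρ|, by positivity, fun σ => (hK _).trans (by
        rw [neg_neg, Real.rpow_one, Pi.one_apply, mul_one]
        exact mul_le_mul_of_nonneg_left (σ.e2.trans (le_abs_self ρ)) K0)⟩
    have hg : ∀ g, Cj (fun σ : Sq C F F0 c0 ρ n s => σ.x) Sq.d m ((F.df F0 C).at g) := fun g =>
      ⟨1, zero_le_one, fun σ => ((jet_mono e1 _).trans (σ.e4 g)).trans_eq (one_mul _).symm⟩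
    have ha : Cj (fun σ : Sq C F F0 c0 ρ n s => σ.x) Sq.d m F.al :=
      ⟨1, zero_le_one, fun σ => ((jet_mono e1 _).trans σ.e5).trans_eq (one_mul _).symm⟩
    refine cj_step a j.some hr hg ha (fun σ => ?_) (fun σ => le_add_of_nonneg_left σ.y0) hk
      (fun v i z hi => ?_) om (sq_nonneg ρ) (fun σ => σ.de a hc) fun x => ?_
    · nlinarith [σ.dd, σ.d0, abs_nonneg ρ]
    · exact ih e1 v i (by omega) hi
    · exact ih e1 _ k (by rw [List.length_cons]; omega) hk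

omit a hc

theorem tubea : P354FX.TUBEA := by
  intro A _ _ C F F0 t a om
  have h := a.ch
  obtain ⟨c0, c1, hc⟩ := sy_small h (f := ![F0.nc 0 - 2, C.r * (F0.mc 3 - C.ri), C.r * F0.mc 2,
    C.r * F0.nc 2, C.r * F0.nc 3, F0.mc 0]) fun i => by
    fin_cases i
    exacts [d1 h a.rf.n0, r1 h a.rf.ma.2.1, r1 h a.rf.ma.1, r1 h a.rf.na.1, r1 h a.rf.na.2.1,
      a.rf.m0.1]
  refine ⟨c0, c1, fun n s ρ => ⟨1 / (20 * (|ρ| + 2)), by positivity, ?_⟩⟩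
  have key : ∀ q : List Lt × Fin 5, ∃ B, q.1.length ≤ s → ∀ σ : Sq C F F0 c0 ρ n s,
      C.jet n (Vw F F0 C q.1 q.2) σ.x ≤ B * (σ.y + σ.d) := fun q => by
    by_cases e : q.1.length ≤ s
    · obtain ⟨B, -, hB⟩ := Sq.key (ρ := ρ) (s := s) a hc om n le_rfl q.1 q.2 (by omega) (by omega)
      exact ⟨B, fun _ => hB⟩
    · exact ⟨0, fun z => absurd z e⟩
  choose B hB using key
  obtain ⟨M, hM⟩ := (((List.finite_length_le Lt s).prod Set.finite_univ).image B).bddAbove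
  refine ⟨|M|, abs_nonneg M, fun x d y e1 e2 e3 e4 e5 e6 w k e => (hB (w, k) e
    ⟨x, d, y, e1, e2, e3, e4, e5, e6⟩).trans (mul_le_mul_of_nonneg_right
    ((hM ⟨(w, k), ⟨e, trivial⟩, rfl⟩).trans (le_abs_self M)) (add_nonneg
    ((md0 _).trans (e6 [] 0 (Nat.zero_le _))) ((jet0 ..).trans e5)))⟩

end Vale.Agent.P354YS
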